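import Vale.Agent.P197.TS.GSpec

/-!
# Tensor squares (P197, question Q2), block ARI (helper537): the numbers
-/

namespace Vale.Agent.P197.TS

/-- `k (k + 1) / 2` without division -/
theorem tri_two (k : ℕ) : 2 * (k * (k + 1) / 2) = k * (k + 1) :=
  Nat.two_mul_div_two_of_even (Nat.even_mul_succ_self k)

theorem tri_succ (k : ℕ) : (k + 1) * (k + 1 + 1) / 2 = k * (k + 1) / 2 + (k + 1) := by
  have h1 := tri_two k
  have h2 := tri_two (k + 1)
  have h3 : (k + 1) * (k + 1 + 1) = k * (k + 1) + 2 * (k + 1) := by ring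
  omega

theorem le_tri (k : ℕ) : k ≤ k * (k + 1) / 2 := by
  have h1 := tri_two k
  have h2 : 2 * k ≤ k * (k + 1) := by nlinarith [Nat.zero_le k, Nat.le_mul_self k]
  omega

/-- the largest `k` with `N_k + 16 k + 102 ≤ n` -/
theorem exists_max (n : ℕ) (hn : 102 ≤ n) :
    ∃ k, k * (k + 1) / 2 + 16 * k + 102 ≤ n ∧ n < (k + 1) * (k + 1 + 1) / 2 + 16 * (k + 1) + 102 := by
  have hex : ∃ k, n < (k + 1) * (k + 1 + 1) / 2 + 16 * (k + 1) + 102 := by
    refine ⟨n, ?_⟩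
    have := le_tri (n + 1)
    omega
  classical
  refine ⟨Nat.find hex, ?_, Nat.find_spec hex⟩
  rcases Nat.eq_zero_or_pos (Nat.find hex) with h0 | h0
  · rw [h0]
    simpa using hn
  · obtain ⟨m, hm⟩ : ∃ m, Nat.find hex = m + 1 := ⟨Nat.find hex - 1, by omega⟩
    have h1 := Nat.find_min hex (m := m) (by omega)
    rw [hm]
    omega

/-- **[ARI]** -/
theorem ari (n : ℕ) (hn : 10 ^ 8 ≤ n) : ∃ k w e : ℕ, e ≤ 15 ∧ 2 * k + 11 ≤ 4 * w ∧
    n + 16 = 32 * w + 2 * e + k * (k + 1) / 2 ∧ 32 * w ≤ 19 * k + 171 ∧ 8000 ≤ k := by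
  have hn' : 100000000 ≤ n := by simpa using hn
  obtain ⟨k0, h1, h2⟩ := exists_max n (by omega)
  -- `k0` is large
  have hk0 : 8010 ≤ k0 := by
    by_contra hcon
    have h3 : k0 ≤ 8009 := by omega
    have h4 := tri_two (k0 + 1)
    have h5 : (k0 + 1) * (k0 + 1 + 1) ≤ 8010 * 8011 := Nat.mul_le_mul (by omega) (by omega)
    omega
  obtain ⟨j, hj⟩ : ∃ j, k0 = j + 2 := ⟨k0 - 2, by omega⟩
  subst hj
  have t1 := tri_succ j
  have t2 := tri_succ (j + 1)
  have t3 := tri_succ (j + 1 + 1)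
  have e1 : (j + 2) * (j + 2 + 1) / 2 = (j + 1 + 1) * (j + 1 + 1 + 1) / 2 := by
    congr 1
  have e2 : (j + 2 + 1) * (j + 2 + 1 + 1) / 2 = (j + 1 + 1 + 1) * (j + 1 + 1 + 1 + 1) / 2 := by
    congr 1
  rw [e1] at h1
  rw [e2] at h2
  -- the parities of three consecutive numbers
  have hpar : ∃ k, j ≤ k ∧ k ≤ j + 2 ∧ (n + 16 - k * (k + 1) / 2) % 2 = 0 ∧
      k * (k + 1) / 2 + 16 * k + 102 ≤ n ∧ n + 16 < k * (k + 1) / 2 + 19 * k + 172 := by
    set a := j * (j + 1) / 2 with ha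
    set b := (j + 1) * (j + 1 + 1) / 2 with hb
    set c := (j + 1 + 1) * (j + 1 + 1 + 1) / 2 with hc
    have hpa : ∃ q, j = 4 * q ∨ j = 4 * q + 1 ∨ j = 4 * q + 2 ∨ j = 4 * q + 3 := ⟨j / 4, by omega⟩
    -- `b = a + j + 1`, `c = a + 2 j + 3`: the parities of `a, b, c` are not all equal
    by_cases p1 : (n + 16 - a) % 2 = 0
    · exact ⟨j, le_rfl, by omega, p1, by omega, by omega⟩
    by_cases p2 : (n + 16 - b) % 2 = 0
    · exact ⟨j + 1, by omega, by omega, p2, by omega, by omega⟩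
    · have p3 : (n + 16 - c) % 2 = 0 := by omega
      exact ⟨j + 1 + 1, by omega, by omega, p3, by omega, by omega⟩
  obtain ⟨k, k1, k2, k3, k4, k5⟩ := hpar
  set N := k * (k + 1) / 2 with hN
  refine ⟨k, (n + 16 - N) / 32, ((n + 16 - N) % 32) / 2, ?_, ?_, ?_, ?_, ?_⟩ <;> omega

/-- the estimate for the covering inequality -/
theorem cov_bound (k w : ℕ) (h1 : 32 * w ≤ 19 * k + 171) (h2 : 8000 ≤ k) :
    w ^ 2 + 61 * (32 * w + 14) < k * (k + 1) / 2 := by
  have t := tri_two k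
  have h3 : (32 * w) * (32 * w) ≤ (19 * k + 171) * (19 * k + 171) :=
    Nat.mul_le_mul h1 h1
  have h5 : 8000 * k ≤ k * k := Nat.mul_le_mul_right k h2
  have e3 : (19 * k + 171) * (19 * k + 171) = 361 * (k * k) + 6498 * k + 29241 := by ring
  have e4 : (32 * w) * (32 * w) = 1024 * w ^ 2 := by ring
  have e5 : k * (k + 1) = k * k + k := by ring
  rw [e3, e4] at h3
  rw [e5] at t ⊢
  generalize k * k = K at *
  generalize w ^ 2 = W at *
  omega

/-- **[PAri]** -/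
theorem pAri : PAri := by
  intro n hn
  obtain ⟨k, w, e, h1, h2, h3, h4, h5⟩ := ari n (by norm_num; exact hn)
  exact ⟨k, w, e, h1, h2, cov_bound k w h4 h5, by omega⟩

end Vale.Agent.P197.TS
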