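import Vale.Agent.P197.TS.GSpec

/-!
# Tensor squares: composition (P197, question Q2)
-/

namespace Vale.Agent.P197.TS

open Equiv Finset

noncomputable section

theorem exists_tab {n : ℕ} (nu : YoungDiagram) (h : nu.card = n) : Nonempty (Fin n ≃ nu.cells) := by
  refine ⟨(Fintype.equivFinOfCardEq ?_).symm⟩
  rw [Fintype.card_coe]
  exact h

theorem card_transpose (nu : YoungDiagram) : nu.transpose.card = nu.card :=
  Saxl.card_transpose nu

/-- the tensor square theorem for large `n` from the blocks -/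
theorem large_of (hK : PKron) (hKT : PKronT) (hG : PGeo) (hC : PCov) (hA : PAri) (hR : PReg)
    (n : ℕ) (hn : 100000000 ≤ n) :
    ∃ lam : YoungDiagram, lam.card = n ∧
      ∀ nu : YoungDiagram, nu.card = n → 0 < kron n lam lam nu := by
  obtain ⟨k, w, e, he, hkw, hcov, hnn⟩ := hA n hn
  obtain ⟨lam, B, B', hlt, hlc, hs1, hBB, hs2, hb, hst⟩ := hG w e k hkw
  refine ⟨lam, by rw [hlc, hnn], fun nu hnu => ?_⟩
  have hcase := hC w e k nu he hcov (by rw [hnu, hnn])
  have key : ∀ mu : YoungDiagram, mu.card = n →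
      (32 * w + 2 * e - 16 ≤ mu.rowLen 0 ∨ (31, w + 31) ∈ mu) →
      ∀ t : Fin n ≃ mu.cells, Occ lam lam (fun x => (t x).1.1) (fun x => (t x).1.2) :=
    fun mu _ h t => hR w e k n lam B B' mu hkw he hs1 hBB hs2 hb hst hnn h t
  have hdir : (32 * w + 2 * e - 16 ≤ nu.rowLen 0 ∨ (31, w + 31) ∈ nu) →
      0 < kron n lam lam nu := by
    intro h
    obtain ⟨t⟩ := exists_tab nu hnu
    exact hK n lam lam nu t (key nu hnu h t)
  have htr : (32 * w + 2 * e - 16 ≤ nu.transpose.rowLen 0 ∨ (31, w + 31) ∈ nu.transpose) →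
      0 < kron n lam lam nu := by
    intro h
    have hc : nu.transpose.card = n := by rw [card_transpose]; exact hnu
    obtain ⟨t⟩ := exists_tab nu.transpose hc
    have h2 := hKT n lam nu.transpose hlt t (key nu.transpose hc h t)
    rwa [YoungDiagram.transpose_transpose] at h2
  rcases hcase with h | h | h | h
  · exact hdir (Or.inl h)
  · refine htr (Or.inl ?_)
    rw [YoungDiagram.rowLen_transpose]
    exact h
  · exact hdir (Or.inr h)
  · refine htr (Or.inr ?_)
    rw [YoungDiagram.mem_transpose]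
    exact h

end

end Vale.Agent.P197.TS
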