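import Vale.Agent.P197.MathlibUsed
import Vale.Agent.P197.Defs

/-!
# The square of a Young symmetriser of blocks does not vanish (block C)
-/

namespace Vale.Agent.P197.TS

open Equiv Finset

noncomputable section

section Abstract

set_option linter.unusedSectionVars false

variable {G : Type} [Group G] [Fintype G] [DecidableEq G]

/-- the left regular representation by matrices -/
def reg (g : G) : Matrix G G ℂ := fun x y => if x = g * y then 1 else 0

theorem reg_mul (g h : G) : reg g * reg h = reg (g * h) := by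
  ext x y
  simp only [reg, Matrix.mul_apply]
  rw [Finset.sum_eq_single (h * y)]
  · simp [mul_assoc]
  · intro z _ hz
    simp [hz]
  · intro h
    exact absurd (Finset.mem_univ _) h

/-- the signed sum over `A` -/
def Am (s : G →* ℤˣ) (A : Finset G) : Matrix G G ℂ := ∑ a ∈ A, (((s a : ℤˣ) : ℤ) : ℂ) • reg a

/-- the sum over `Γ` -/
def Gp (Γ : Finset G) : Matrix G G ℂ := ∑ g ∈ Γ, reg g

theorem sgn_mul_self (s : G →* ℤˣ) (a : G) :
    (((s a : ℤˣ) : ℤ) : ℂ) * (((s a : ℤˣ) : ℤ) : ℂ) = 1 := by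
  rcases Int.units_eq_one_or (s a) with h | h <;> simp [h]

theorem sgn_inv (s : G →* ℤˣ) (a : G) :
    (((s a⁻¹ : ℤˣ) : ℤ) : ℂ) = (((s a : ℤˣ) : ℤ) : ℂ) := by
  rw [map_inv]
  rcases Int.units_eq_one_or (s a) with h | h <;> simp [h]

theorem sgn_mul (s : G →* ℤˣ) (a b : G) :
    (((s (a * b) : ℤˣ) : ℤ) : ℂ) = (((s a : ℤˣ) : ℤ) : ℂ) * (((s b : ℤˣ) : ℤ) : ℂ) := by
  rw [map_mul]; push_cast; ring

theorem Am_mul_reg (s : G →* ℤˣ) {A : Finset G} (hAm : ∀ a ∈ A, ∀ b ∈ A, a * b ∈ A)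
    (hAi : ∀ a ∈ A, a⁻¹ ∈ A) {t : G} (ht : t ∈ A) :
    Am s A * reg t = (((s t : ℤˣ) : ℤ) : ℂ) • Am s A := by
  unfold Am
  rw [Finset.sum_mul, Finset.smul_sum]
  refine Finset.sum_nbij' (fun a => a * t) (fun a => a * t⁻¹) ?_ ?_ ?_ ?_ ?_
  · intro a ha; exact hAm a ha t ht
  · intro a ha; exact hAm a ha _ (hAi t ht)
  · intro a _; simp
  · intro a _; simp
  · intro a _
    rw [Matrix.smul_mul, reg_mul, smul_smul, sgn_mul, ← mul_assoc,
      mul_comm (((s t : ℤˣ) : ℤ) : ℂ), mul_assoc, sgn_mul_self, mul_one]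

theorem reg_mul_Gp {Γ : Finset G} (hm : ∀ a ∈ Γ, ∀ b ∈ Γ, a * b ∈ Γ)
    (hi : ∀ a ∈ Γ, a⁻¹ ∈ Γ) {t : G} (ht : t ∈ Γ) : reg t * Gp Γ = Gp Γ := by
  unfold Gp
  rw [Finset.mul_sum]
  refine Finset.sum_nbij' (fun a => t * a) (fun a => t⁻¹ * a) ?_ ?_ ?_ ?_ ?_
  · intro a ha; exact hm t ht a ha
  · intro a ha; exact hm _ (hi t ht) a ha
  · intro a _; simp
  · intro a _; simp
  · intro a _; rw [reg_mul]

/-- the abstract statement -/
theorem abs_ne_zero (s : G →* ℤˣ) (H A Γ : Finset G)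
    (hA1 : 1 ∈ A) (hAm : ∀ a ∈ A, ∀ b ∈ A, a * b ∈ A) (hAi : ∀ a ∈ A, a⁻¹ ∈ A)
    (hG1 : 1 ∈ Γ) (hGm : ∀ a ∈ Γ, ∀ b ∈ Γ, a * b ∈ Γ) (hGi : ∀ a ∈ Γ, a⁻¹ ∈ Γ)
    (hH : ∀ g ∈ Γ, ∀ a ∈ A, g * a ∈ H)
    (hd : ∀ g ∈ A, g ∈ Γ → g = 1)
    (hc : ∀ g ∈ H, (∃ a ∈ A, ∃ γ ∈ Γ, g = a * γ) ∨ ∃ τ ∈ A, g⁻¹ * τ * g ∈ Γ ∧ s τ = -1) :
    ∑ π ∈ H, (((s π : ℤˣ) : ℤ) : ℂ) * (∑ σ ∈ Γ with π * σ ∈ A, (((s σ : ℤˣ) : ℤ) : ℂ)) *
      (∑ σ ∈ A with π * σ ∈ Γ, (((s σ : ℤˣ) : ℤ) : ℂ)) ≠ 0 := by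
  classical
  set c := ∑ π ∈ H, (((s π : ℤˣ) : ℤ) : ℂ) * (∑ σ ∈ Γ with π * σ ∈ A, (((s σ : ℤˣ) : ℤ) : ℂ)) *
      (∑ σ ∈ A with π * σ ∈ Γ, (((s σ : ℤˣ) : ℤ) : ℂ)) with hcdef
  -- the middle factor
  have h1 : ∀ π ∈ H, Am s A * reg π * Gp Γ =
      ((((s π : ℤˣ) : ℤ) : ℂ) * (∑ σ ∈ Γ with π * σ ∈ A, (((s σ : ℤˣ) : ℤ) : ℂ))) •
        (Am s A * Gp Γ) := by
    intro π hπ
    rcases hc π hπ with ⟨a, ha, γ, hγ, rfl⟩ | ⟨τ, hτ, hτ2, hτ3⟩
    · have e1 : (Finset.filter (fun σ => a * γ * σ ∈ A) Γ) = {γ⁻¹} := by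
        ext σ
        simp only [Finset.mem_filter, Finset.mem_singleton]
        constructor
        · rintro ⟨h1, h2⟩
          have h3 : γ * σ ∈ A := by
            have := hAm _ (hAi a ha) _ h2
            simpa [mul_assoc] using this
          have h4 := hd _ h3 (hGm γ hγ σ h1)
          exact eq_inv_of_mul_eq_one_right h4
        · rintro rfl
          exact ⟨hGi γ hγ, by simpa using ha⟩
      have e2 : (((s (a * γ) : ℤˣ) : ℤ) : ℂ) * (((s γ : ℤˣ) : ℤ) : ℂ) =
          (((s a : ℤˣ) : ℤ) : ℂ) := by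
        rw [sgn_mul, mul_assoc, sgn_mul_self, mul_one]
      rw [e1, Finset.sum_singleton, sgn_inv, e2,
        ← reg_mul, ← Matrix.mul_assoc, Am_mul_reg s hAm hAi ha, Matrix.mul_assoc,
        reg_mul_Gp hGm hGi hγ, Matrix.smul_mul]
    · have e1 : (Finset.filter (fun σ => π * σ ∈ A) Γ) = ∅ := by
        ext σ
        simp only [Finset.mem_filter, Finset.notMem_empty, iff_false]
        rintro ⟨h1, h2⟩
        have h3 : (π * σ)⁻¹ * τ * (π * σ) ∈ A := hAm _ (hAm _ (hAi _ h2) _ hτ) _ h2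
        have h4 : (π * σ)⁻¹ * τ * (π * σ) ∈ Γ := by
          have : (π * σ)⁻¹ * τ * (π * σ) = σ⁻¹ * (π⁻¹ * τ * π) * σ := by group
          rw [this]
          exact hGm _ (hGm _ (hGi _ h1) _ hτ2) _ h1
        have h5 := hd _ h3 h4
        have h6 : τ = 1 := by
          have : τ = (π * σ) * ((π * σ)⁻¹ * τ * (π * σ)) * (π * σ)⁻¹ := by group
          rw [this, h5]; group
        rw [h6, map_one] at hτ3
        exact absurd hτ3 (by decide)
      rw [e1, Finset.sum_empty, mul_zero, zero_smul]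
      have e2 : reg τ * reg π * Gp Γ = reg π * Gp Γ := by
        have : reg τ * reg π = reg π * reg (π⁻¹ * τ * π) := by
          rw [reg_mul, reg_mul]; congr 1; group
        rw [this, Matrix.mul_assoc, reg_mul_Gp hGm hGi hτ2]
      have e3 : Am s A * reg π * Gp Γ = - (Am s A * reg π * Gp Γ) := by
        calc Am s A * reg π * Gp Γ = Am s A * (reg π * Gp Γ) := by rw [Matrix.mul_assoc]
          _ = Am s A * (reg τ * reg π * Gp Γ) := by rw [e2]
          _ = (Am s A * reg τ) * (reg π * Gp Γ) := by simp only [Matrix.mul_assoc]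
          _ = - (Am s A * reg π * Gp Γ) := by
            rw [Am_mul_reg s hAm hAi hτ, hτ3]
            simp [Matrix.mul_assoc]
      ext x y
      have e4 := congrFun (congrFun e3 x) y
      rw [Matrix.neg_apply] at e4
      exact self_eq_neg.1 e4
  -- the product `Γ⁺ A⁻`
  have h2 : Gp Γ * Am s A = ∑ π ∈ H, (∑ σ ∈ A with π * σ ∈ Γ, (((s σ : ℤˣ) : ℤ) : ℂ)) • reg π := by
    unfold Gp Am
    rw [Finset.sum_mul_sum]
    have e1 : ∀ π ∈ H, (∑ σ ∈ A with π * σ ∈ Γ, (((s σ : ℤˣ) : ℤ) : ℂ)) • reg π =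
        ∑ x ∈ (Γ ×ˢ A).filter (fun x => x.1 * x.2 = π), (((s x.2 : ℤˣ) : ℤ) : ℂ) • reg (x.1 * x.2) := by
      intro π _
      rw [Finset.sum_smul]
      refine Finset.sum_nbij' (fun σ => (π * σ, σ⁻¹)) (fun x => x.2⁻¹) ?_ ?_ ?_ ?_ ?_
      · intro σ hσ
        simp only [Finset.mem_filter] at hσ
        simp only [Finset.mem_filter, Finset.mem_product]
        exact ⟨⟨hσ.2, hAi _ hσ.1⟩, by group⟩
      · rintro ⟨x, y⟩ hx
        simp only [Finset.mem_filter, Finset.mem_product] at hx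
        simp only [Finset.mem_filter]
        refine ⟨hAi _ hx.1.2, ?_⟩
        rw [← hx.2]
        simpa using hx.1.1
      · intro σ _; simp
      · rintro ⟨x, y⟩ hx
        simp only [Finset.mem_filter, Finset.mem_product] at hx
        rw [← hx.2]; simp
      · intro σ _
        simp
    rw [Finset.sum_congr rfl e1]
    rw [Finset.sum_fiberwise_of_maps_to (s := Γ ×ˢ A) (t := H) (g := fun x => x.1 * x.2)
      (fun x hx => hH _ (Finset.mem_product.1 hx).1 _ (Finset.mem_product.1 hx).2)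
      (fun x => (((s x.2 : ℤˣ) : ℤ) : ℂ) • reg (x.1 * x.2)), Finset.sum_product]
    refine Finset.sum_congr rfl fun x _ => Finset.sum_congr rfl fun y _ => ?_
    rw [Matrix.mul_smul, reg_mul]
  -- the square
  have h3 : (Am s A * Gp Γ) * (Am s A * Gp Γ) = c • (Am s A * Gp Γ) := by
    calc (Am s A * Gp Γ) * (Am s A * Gp Γ) = Am s A * (Gp Γ * Am s A) * Gp Γ := by
          simp only [Matrix.mul_assoc]
      _ = c • (Am s A * Gp Γ) := by
          rw [h2, Finset.mul_sum, Finset.sum_mul, hcdef, Finset.sum_smul]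
          refine Finset.sum_congr rfl fun π hπ => ?_
          rw [Matrix.mul_smul, Matrix.smul_mul, h1 π hπ, smul_smul]
          congr 1
          ring
  intro hc0
  rw [hc0, zero_smul] at h3
  have h4 : IsNilpotent (Am s A * Gp Γ) := ⟨2, by rw [pow_two]; exact h3⟩
  have h5 : IsNilpotent (Am s A * Gp Γ).trace := Matrix.isNilpotent_trace_of_isNilpotent h4
  have h6 : (Am s A * Gp Γ).trace = 0 := h5.eq_zero
  have h7 : (Am s A * Gp Γ).trace = Fintype.card G := by
    unfold Am Gp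
    rw [Finset.sum_mul_sum, Matrix.trace_sum]
    rw [Finset.sum_eq_single_of_mem (1 : G) hA1]
    · rw [Matrix.trace_sum, Finset.sum_eq_single_of_mem (1 : G) hG1]
      · simp [reg_mul, Matrix.trace, reg]
      · intro b hb hb1
        rw [Matrix.smul_mul, reg_mul, Matrix.trace_smul]
        simp [Matrix.trace, reg, hb1]
    · intro a ha ha1
      rw [Matrix.trace_sum]
      refine Finset.sum_eq_zero fun b hb => ?_
      rw [Matrix.smul_mul, reg_mul, Matrix.trace_smul]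
      have hab : a * b ≠ 1 := by
        intro h
        have h8 : a = b⁻¹ := eq_inv_of_mul_eq_one_left h
        exact ha1 (hd a ha (h8 ▸ hGi b hb))
      simp [Matrix.trace, reg, hab]
  rw [h6] at h7
  have h8 : (Fintype.card G : ℂ) ≠ 0 := by
    rw [Nat.cast_ne_zero]
    exact Fintype.card_ne_zero
  exact h8 h7.symm

end Abstract

/-! ## the label form -/

theorem apInv {X : Type} (f : Perm X) (x : X) : f (f⁻¹ x) = x := f.apply_symm_apply x

theorem invAp {X : Type} (f : Perm X) (x : X) : f⁻¹ (f x) = x := f.symm_apply_apply x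

theorem label_sum_ne_zero {X : Type} [Fintype X] [DecidableEq X] (i j cl : X → ℕ)
    (hi : ∀ x y, i x = i y → cl x = cl y) (hj : ∀ x y, j x = j y → cl x = cl y)
    (hij : ∀ x y, i x = i y → j x = j y → x = y)
    (hrect : ∀ x y, cl x = cl y → ∃ z, i z = i x ∧ j z = j y) :
    ∑ π ∈ stab cl, ((Perm.sign π : ℤ) : ℂ) *
      (∑ σ ∈ stab j with π * σ ∈ stab i, ((Perm.sign σ : ℤ) : ℂ)) *
      (∑ σ ∈ stab i with π * σ ∈ stab j, ((Perm.sign σ : ℤ) : ℂ)) ≠ 0 := by
  classical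
  refine abs_ne_zero (G := Perm X) Perm.sign (stab cl) (stab i) (stab j) ?_ ?_ ?_ ?_ ?_ ?_ ?_ ?_ ?_
  · exact mem_stab.2 fun x => rfl
  · intro a ha b hb
    rw [mem_stab] at ha hb ⊢
    intro x
    rw [Perm.mul_apply, ha, hb]
  · intro a ha
    rw [mem_stab] at ha ⊢
    intro x
    rw [← ha (a⁻¹ x), apInv]
  · exact mem_stab.2 fun x => rfl
  · intro a ha b hb
    rw [mem_stab] at ha hb ⊢
    intro x
    rw [Perm.mul_apply, ha, hb]
  · intro a ha
    rw [mem_stab] at ha ⊢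
    intro x
    rw [← ha (a⁻¹ x), apInv]
  · intro g hg a ha
    rw [mem_stab] at ha hg ⊢
    intro x
    rw [Perm.mul_apply, hj _ _ (hg (a x)), hi _ _ (ha x)]
  · intro g hg hg'
    rw [mem_stab] at hg hg'
    ext x
    exact hij _ _ (hg x) (hg' x)
  · intro g hg
    rw [mem_stab] at hg
    by_cases hex : ∃ x y, x ≠ y ∧ i x = i y ∧ j (g⁻¹ x) = j (g⁻¹ y)
    · right
      obtain ⟨x, y, hxy, h1, h2⟩ := hex
      refine ⟨Equiv.swap x y, ?_, ?_, Perm.sign_swap hxy⟩
      · rw [mem_stab]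
        intro z
        by_cases hzx : z = x
        · rw [hzx, Equiv.swap_apply_left, h1]
        · by_cases hzy : z = y
          · rw [hzy, Equiv.swap_apply_right, h1]
          · rw [Equiv.swap_apply_of_ne_of_ne hzx hzy]
      · rw [mem_stab]
        intro z
        rw [Perm.mul_apply, Perm.mul_apply]
        by_cases hzx : g z = x
        · rw [hzx, Equiv.swap_apply_left, ← h2, ← hzx, invAp]
        · by_cases hzy : g z = y
          · rw [hzy, Equiv.swap_apply_right, h2, ← hzy, invAp]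
          · rw [Equiv.swap_apply_of_ne_of_ne hzx hzy, invAp]
    · left
      push Not at hex
      -- the cell in the row of `g u` and the column of `u`
      have hz : ∀ u, ∃ z, i z = i (g u) ∧ j z = j u := fun u => hrect _ _ (hg u)
      choose f hf1 hf2 using hz
      have hinj : Function.Injective f := by
        intro u v huv
        by_contra hne
        have h1 : i (g u) = i (g v) := by rw [← hf1 u, ← hf1 v, huv]
        have h2 : j u = j v := by rw [← hf2 u, ← hf2 v, huv]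
        have h3 := hex (g u) (g v) (fun h => hne (g.injective h)) h1
        rw [invAp, invAp] at h3
        exact h3 h2
      set γ : Perm X := Equiv.ofBijective f (Finite.injective_iff_bijective.1 hinj) with hγ
      have hγa : ∀ u, γ u = f u := fun u => rfl
      refine ⟨g * γ⁻¹, ?_, γ, ?_, by group⟩
      · rw [mem_stab]
        intro z
        rw [Perm.mul_apply, ← hf1 (γ⁻¹ z), ← hγa, apInv]
      · rw [mem_stab]
        intro u
        rw [hγa, hf2]

end

end Vale.Agent.P197.TS
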