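import Vale.Agent.P197.TS.Spec
import Vale.Agent.P197.TS.C

/-!
# Top data with rectangular content (P197, block BLK)
-/

namespace Vale.Agent.P197.TS

open Equiv Finset

noncomputable section

namespace Blk

variable {Y : Type} [Fintype Y] [DecidableEq Y]

theorem one_mem_stab (f : Y → ℕ) : (1 : Perm Y) ∈ stab f := by
  rw [mem_stab]; intro x; rfl

theorem mul_mem_stab {f : Y → ℕ} {a b : Perm Y} (ha : a ∈ stab f) (hb : b ∈ stab f) :
    a * b ∈ stab f := by
  rw [mem_stab] at *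
  intro x
  rw [Perm.mul_apply, ha, hb]

theorem inv_mem_stab {f : Y → ℕ} {a : Perm Y} (ha : a ∈ stab f) : a⁻¹ ∈ stab f := by
  rw [mem_stab] at *
  intro x
  have := ha (a⁻¹ x)
  rw [← this]
  simp

/-- the two tableaux and the labels, abstractly -/
structure Dat (rl cl i j r r' : Y → ℕ) : Prop where
  hI : ∀ x y, i x = i y ↔ cl x = cl y ∧ r x = r y
  hJ : ∀ x y, j x = j y ↔ cl x = cl y ∧ r' x = r' y
  hIJ : ∀ x y, i x = i y → j x = j y → x = y
  hex : ∀ x y, cl x = cl y → ∃ z, i z = i x ∧ j z = j y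
  hrl : ∀ x y, rl x = rl y → r x = r y ∧ r' x = r' y

variable {rl cl i j r r' : Y → ℕ}

theorem Dat.subI (D : Dat rl cl i j r r') : stab i ⊆ stab cl := by
  intro a ha
  rw [mem_stab] at *
  exact fun x => ((D.hI _ _).1 (ha x)).1

theorem Dat.subJ (D : Dat rl cl i j r r') : stab j ⊆ stab cl := by
  intro a ha
  rw [mem_stab] at *
  exact fun x => ((D.hJ _ _).1 (ha x)).1

theorem Dat.inter (D : Dat rl cl i j r r') (a : Perm Y) (ha : a ∈ stab i) (hb : a ∈ stab j) :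
    a = 1 := by
  rw [mem_stab] at *
  ext x
  simpa using D.hIJ _ _ (ha x) (hb x)

theorem Dat.memI (D : Dat rl cl i j r r') (g : Perm Y) (hg : g ∈ stab cl) :
    g ∈ stab i ↔ g ∈ stab r := by
  rw [mem_stab] at *
  rw [mem_stab]
  constructor
  · exact fun h x => ((D.hI _ _).1 (h x)).2
  · exact fun h x => (D.hI _ _).2 ⟨hg x, h x⟩

theorem Dat.memJ (D : Dat rl cl i j r r') (g : Perm Y) (hg : g ∈ stab cl) :
    g ∈ stab j ↔ g ∈ stab r' := by
  rw [mem_stab] at *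
  rw [mem_stab]
  constructor
  · exact fun h x => ((D.hJ _ _).1 (h x)).2
  · exact fun h x => (D.hJ _ _).2 ⟨hg x, h x⟩

theorem comp_eq_iff (f : Y → ℕ) (ρ κ σ : Perm Y) (hρ : ∀ x, f (ρ x) = f x) :
    (f ∘ ⇑(σ⁻¹ : Perm Y)) ∘ ⇑((ρ * κ)⁻¹ : Perm Y) = f ↔ κ * σ ∈ stab f := by
  rw [mem_stab]
  constructor
  · intro h x
    have h1 := congrFun h (ρ (κ (σ x)))
    have h2 : ((ρ * κ)⁻¹ : Perm Y) (ρ (κ (σ x))) = σ x := by
      have : ρ (κ (σ x)) = (ρ * κ) (σ x) := rfl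
      rw [this]
      simp
    rw [Function.comp_apply, Function.comp_apply, h2] at h1
    have h3 : (σ⁻¹ : Perm Y) (σ x) = x := by simp
    rw [h3, hρ] at h1
    exact h1.symm
  · intro h
    funext x
    obtain ⟨z, rfl⟩ : ∃ z, x = ρ (κ (σ z)) := ⟨σ⁻¹ (κ⁻¹ (ρ⁻¹ x)), by simp⟩
    have h2 : ((ρ * κ)⁻¹ : Perm Y) (ρ (κ (σ z))) = σ z := by
      have : ρ (κ (σ z)) = (ρ * κ) (σ z) := rfl
      rw [this]
      simp
    rw [Function.comp_apply, Function.comp_apply, h2]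
    have h3 : (σ⁻¹ : Perm Y) (σ z) = z := by simp
    rw [h3, hρ]
    exact (h z).symm

open Classical in
/-- the kernel: delta function at a pair of words -/
def ker (r r' : Y → ℕ) : (Y → ℕ) → (Y → ℕ) → ℂ :=
  fun u u' => if u = r ∧ u' = r' then 1 else 0

theorem Dat.occ_ne (D : Dat rl cl i j r r') :
    occ rl cl (Fn (kform (ker r r')) (polyt j r) (polyt i r')) ≠ 0 := by
  classical
  have h1 : ∀ ρ ∈ stab rl, ∑ κ ∈ stab cl, ((Perm.sign κ : ℤ) : ℂ) *
      Fn (kform (ker r r')) (polyt j r) (polyt i r') (ρ * κ) =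
      ∑ κ ∈ stab cl, ((Perm.sign κ : ℤ) : ℂ) *
        (∑ σ ∈ stab j with κ * σ ∈ stab i, ((Perm.sign σ : ℤ) : ℂ)) *
        (∑ σ ∈ stab i with κ * σ ∈ stab j, ((Perm.sign σ : ℤ) : ℂ)) := by
    intro ρ hρ
    have hρr : ∀ x, r (ρ x) = r x := fun x => (D.hrl _ _ (mem_stab.1 hρ x)).1
    have hρr' : ∀ x, r' (ρ x) = r' x := fun x => (D.hrl _ _ (mem_stab.1 hρ x)).2
    refine Finset.sum_congr rfl fun κ hκ => ?_
    rw [Quat.Fn_kform, mul_assoc, Finset.sum_filter, Finset.sum_filter, Finset.sum_mul_sum]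
    congr 1
    refine Finset.sum_congr rfl fun σ hσ => ?_
    refine Finset.sum_congr rfl fun τ hτ => ?_
    have e1 : (r ∘ ⇑(σ⁻¹ : Perm Y)) ∘ ⇑((ρ * κ)⁻¹ : Perm Y) = r ↔ κ * σ ∈ stab i := by
      rw [comp_eq_iff r ρ κ σ hρr, D.memI _ (mul_mem_stab hκ (D.subJ hσ))]
    have e2 : (r' ∘ ⇑(τ⁻¹ : Perm Y)) ∘ ⇑((ρ * κ)⁻¹ : Perm Y) = r' ↔ κ * τ ∈ stab j := by
      rw [comp_eq_iff r' ρ κ τ hρr', D.memJ _ (mul_mem_stab hκ (D.subI hτ))]
    unfold ker
    simp only [e1, e2]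
    by_cases ha : κ * σ ∈ stab i
    · by_cases hb : κ * τ ∈ stab j
      · rw [if_pos ⟨ha, hb⟩, if_pos ha, if_pos hb]; ring
      · rw [if_neg (fun h => hb h.2), if_neg hb]; ring
    · rw [if_neg (fun h => ha h.1), if_neg ha]; ring
  unfold occ
  rw [Finset.sum_congr rfl h1, Finset.sum_const, nsmul_eq_mul]
  refine mul_ne_zero ?_ ?_
  · exact_mod_cast (Finset.card_pos.2 ⟨_, one_mem_stab rl⟩).ne'
  · exact label_sum_ne_zero i j cl (fun x y h => ((D.hI x y).1 h).1)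
      (fun x y h => ((D.hJ x y).1 h).1) D.hIJ D.hex

/-! ### The concrete labels -/

section Lab

variable {w e : ℕ}

/-- column of the first tableau -/
def labJ (w e : ℕ) : (Fin w × Fin 4 × Fin 4) ⊕ Fin e → ℕ
  | Sum.inl p => 4 * p.1 + p.2.2
  | Sum.inr s => 4 * w + s

/-- column of the second tableau -/
def labI (w e : ℕ) : (Fin w × Fin 4 × Fin 4) ⊕ Fin e → ℕ
  | Sum.inl p => 4 * (w - 1 - p.1) + p.2.1
  | Sum.inr s => 4 * w + s

theorem lab_I (x y : (Fin w × Fin 4 × Fin 4) ⊕ Fin e) :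
    labI w e x = labI w e y ↔ blk x = blk y ∧ (ltr x).1 = (ltr y).1 := by
  rcases x with ⟨q, a, g⟩ | s <;> rcases y with ⟨q', a', g'⟩ | s'
  · simp only [labI, blk, ltr]; omega
  · simp only [labI, blk, ltr]; omega
  · simp only [labI, blk, ltr]; omega
  · simp only [labI, blk, ltr, and_true]; omega

theorem lab_J (x y : (Fin w × Fin 4 × Fin 4) ⊕ Fin e) :
    labJ w e x = labJ w e y ↔ blk x = blk y ∧ (ltr x).2 = (ltr y).2 := by
  rcases x with ⟨q, a, g⟩ | s <;> rcases y with ⟨q', a', g'⟩ | s'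
  · simp only [labJ, blk, ltr]; omega
  · simp only [labJ, blk, ltr]; omega
  · simp only [labJ, blk, ltr]; omega
  · simp only [labJ, blk, ltr, and_true]; omega

theorem lab_inj (x y : (Fin w × Fin 4 × Fin 4) ⊕ Fin e) (hb : blk x = blk y)
    (hl : ltr x = ltr y) : x = y := by
  rcases x with ⟨q, a, g⟩ | s <;> rcases y with ⟨q', a', g'⟩ | s'
  · simp only [blk, ltr, Prod.mk.injEq] at hb hl
    have h1 : q = q' := Fin.ext hb
    have h2 : a = a' := Fin.ext hl.1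
    have h3 : g = g' := Fin.ext hl.2
    rw [h1, h2, h3]
  · simp only [blk] at hb; omega
  · simp only [blk] at hb; omega
  · simp only [blk] at hb
    have h1 : s = s' := Fin.ext (by omega)
    rw [h1]

theorem lab_ex (x y : (Fin w × Fin 4 × Fin 4) ⊕ Fin e) (hb : blk x = blk y) :
    ∃ z, labI w e z = labI w e x ∧ labJ w e z = labJ w e y := by
  rcases x with ⟨q, a, g⟩ | s <;> rcases y with ⟨q', a', g'⟩ | s'
  · simp only [blk] at hb
    refine ⟨Sum.inl (q, a, g'), rfl, ?_⟩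
    simp only [labJ]
    omega
  · simp only [blk] at hb; omega
  · simp only [blk] at hb; omega
  · simp only [blk] at hb
    refine ⟨Sum.inr s, rfl, ?_⟩
    simp only [labJ]
    omega

theorem lab_topJ (x : (Fin w × Fin 4 × Fin 4) ⊕ Fin e) : topCell w e (ltr x).1 (labJ w e x) := by
  rcases x with ⟨q, a, g⟩ | s
  · left
    simp only [labJ, ltr]
    omega
  · refine Or.inr ⟨rfl, ?_⟩
    simp only [labJ]
    omega

theorem lab_topI (x : (Fin w × Fin 4 × Fin 4) ⊕ Fin e) : topCell w e (ltr x).2 (labI w e x) := by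
  rcases x with ⟨q, a, g⟩ | s
  · left
    simp only [labI, ltr]
    omega
  · refine Or.inr ⟨rfl, ?_⟩
    simp only [labI]
    omega

theorem lab_surjJ (a c : ℕ) (h : topCell w e a c) :
    ∃ x : (Fin w × Fin 4 × Fin 4) ⊕ Fin e, (ltr x).1 = a ∧ labJ w e x = c := by
  by_cases hc : c < 4 * w
  · have ha : a < 4 := by rcases h with h | h <;> omega
    refine ⟨Sum.inl (⟨c / 4, by omega⟩, ⟨a, ha⟩, ⟨c % 4, Nat.mod_lt _ (by norm_num)⟩), rfl, ?_⟩
    simp only [labJ]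
    omega
  · have h' : a = 0 ∧ c < 4 * w + e := by rcases h with h | h <;> omega
    refine ⟨Sum.inr ⟨c - 4 * w, by omega⟩, h'.1.symm, ?_⟩
    simp only [labJ]
    omega

theorem lab_surjI (a c : ℕ) (h : topCell w e a c) :
    ∃ x : (Fin w × Fin 4 × Fin 4) ⊕ Fin e, (ltr x).2 = a ∧ labI w e x = c := by
  by_cases hc : c < 4 * w
  · have ha : a < 4 := by rcases h with h | h <;> omega
    refine ⟨Sum.inl (⟨w - 1 - c / 4, by omega⟩, ⟨c % 4, Nat.mod_lt _ (by norm_num)⟩, ⟨a, ha⟩),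
      rfl, ?_⟩
    simp only [labI]
    omega
  · have h' : a = 0 ∧ c < 4 * w + e := by rcases h with h | h <;> omega
    refine ⟨Sum.inr ⟨c - 4 * w, by omega⟩, h'.1.symm, ?_⟩
    simp only [labI]
    omega

theorem lab_gap {b : ℕ} (hb : 2 * b + 3 ≤ 4 * w) (x : (Fin w × Fin 4 × Fin 4) ⊕ Fin e) :
    b ≤ labJ w e x ∨ b ≤ labI w e x := by
  rcases x with ⟨q, a, g⟩ | s
  · simp only [labI, labJ]
    omega
  · left
    simp only [labJ]
    omega

end Lab

end Blk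

open Blk in
/-- (BLK) -/
theorem pBlock : PBlock := by
  intro Y _ _ w e b φ rl cl hb hcl hrl
  refine ⟨fun y => (ltr (φ y)).1, fun y => labJ w e (φ y), fun y => (ltr (φ y)).2,
    fun y => labI w e (φ y), ⟨fun y => lab_topJ _, ?_, ?_⟩, ⟨fun y => lab_topI _, ?_, ?_⟩,
    fun y => lab_gap hb _,
    ker (fun y => (ltr (φ y)).1) (fun y => (ltr (φ y)).2), ?_⟩
  · intro y z h1 h2
    have h3 := (lab_J _ _).1 h2
    exact φ.injective (lab_inj _ _ h3.1 (Prod.ext h1 h3.2))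
  · intro a c h
    obtain ⟨x, hx1, hx2⟩ := lab_surjJ a c h
    exact ⟨φ.symm x, by simpa using hx1, by simpa using hx2⟩
  · intro y z h1 h2
    have h3 := (lab_I _ _).1 h2
    exact φ.injective (lab_inj _ _ h3.1 (Prod.ext h3.2 h1))
  · intro a c h
    obtain ⟨x, hx1, hx2⟩ := lab_surjI a c h
    exact ⟨φ.symm x, by simpa using hx1, by simpa using hx2⟩
  · refine Dat.occ_ne ⟨?_, ?_, ?_, ?_, ?_⟩
    · intro x y
      rw [hcl]
      exact lab_I _ _
    · intro x y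
      rw [hcl]
      exact lab_J _ _
    · intro x y h1 h2
      have h3 := (lab_I _ _).1 h1
      have h4 := (lab_J _ _).1 h2
      exact φ.injective (lab_inj _ _ h3.1 (Prod.ext h3.2 h4.2))
    · intro x y h
      obtain ⟨z, hz1, hz2⟩ := lab_ex (φ x) (φ y) ((hcl x y).1 h)
      exact ⟨φ.symm z, by simpa using hz1, by simpa using hz2⟩
    · intro x y h
      have := hrl x y h
      exact ⟨congrArg Prod.fst this, congrArg Prod.snd this⟩

end

end Vale.Agent.P197.TS
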