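import Vale.Agent.P197.TS.C

/-!
# Block C, quadruple sum form
-/

namespace Vale.Agent.P197.TS

open Equiv Finset

theorem coreC {G : Type} [Group G] [Fintype G] [DecidableEq G] (s : G →* ℤˣ) (A Γ S : Finset G)
    (hA1 : (1:G) ∈ A) (hAm : ∀ a ∈ A, ∀ b ∈ A, a * b ∈ A) (hAi : ∀ a ∈ A, a⁻¹ ∈ A)
    (hG1 : (1:G) ∈ Γ) (hGm : ∀ a ∈ Γ, ∀ b ∈ Γ, a * b ∈ Γ) (hGi : ∀ a ∈ Γ, a⁻¹ ∈ Γ)
    (hSm : ∀ a ∈ S, ∀ b ∈ S, a * b ∈ S) (hAS : A ⊆ S) (hGS : Γ ⊆ S)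
    (h1 : ∀ a ∈ A, a ∈ Γ → a = 1)
    (dich : ∀ g ∈ S, (∃ a ∈ A, ∃ γ ∈ Γ, g = a * γ) ∨ ∃ τ ∈ A, g⁻¹ * τ * g ∈ Γ ∧ s τ = -1) :
    ∑ a ∈ A, ∑ a1 ∈ A, ∑ k ∈ Γ, ∑ γ ∈ Γ,
      (if k * a = a1 * γ then ((s a : ℤ) * (s a1 : ℤ)) else 0) ≠ 0 := by
  classical
  have key := abs_ne_zero s S A Γ hA1 hAm hAi hG1 hGm hGi
    (fun g hg a ha => hSm g (hGS hg) a (hAS ha)) h1 dich
  intro h0
  apply key
  have e0 : ((∑ a ∈ A, ∑ a1 ∈ A, ∑ k ∈ Γ, ∑ γ ∈ Γ,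
      (if k * a = a1 * γ then ((s a : ℤ) * (s a1 : ℤ)) else 0) : ℤ) : ℂ) = 0 := by
    rw [h0]; simp
  rw [← e0]
  push_cast
  -- inner sums
  have e1 : ∀ π ∈ S, (((s π : ℤˣ) : ℤ) : ℂ) * (∑ σ ∈ Γ with π * σ ∈ A, (((s σ : ℤˣ) : ℤ) : ℂ)) =
      ∑ a1 ∈ A, ∑ γ ∈ Γ, if π = a1 * γ then (((s a1 : ℤˣ) : ℤ) : ℂ) else 0 := by
    intro π _
    rw [Finset.mul_sum, Finset.sum_filter, Finset.sum_comm]
    refine Finset.sum_nbij' (fun σ => σ⁻¹) (fun σ => σ⁻¹) (fun a ha => hGi a ha)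
      (fun a ha => hGi a ha) (fun a _ => inv_inv a) (fun a _ => inv_inv a) ?_
    intro σ hσ
    by_cases h : π * σ ∈ A
    · rw [if_pos h, Finset.sum_eq_single_of_mem (π * σ) h]
      · rw [if_pos (by group), sgn_mul]
      · intro b _ hb
        rw [if_neg]
        intro h2
        exact hb (by rw [h2]; group)
    · rw [if_neg h]
      symm
      refine Finset.sum_eq_zero fun a ha => ?_
      rw [if_neg]
      intro h2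
      exact h (by rw [h2]; simpa using ha)
  have e2 : ∀ π ∈ S, (∑ σ ∈ A with π * σ ∈ Γ, (((s σ : ℤˣ) : ℤ) : ℂ)) =
      ∑ a ∈ A, ∑ k ∈ Γ, if k * a = π then (((s a : ℤˣ) : ℤ) : ℂ) else 0 := by
    intro π _
    rw [Finset.sum_filter]
    refine Finset.sum_nbij' (fun σ => σ⁻¹) (fun σ => σ⁻¹) (fun a ha => hAi a ha)
      (fun a ha => hAi a ha) (fun a _ => inv_inv a) (fun a _ => inv_inv a) ?_
    intro σ hσ
    by_cases h : π * σ ∈ Γ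
    · rw [if_pos h, Finset.sum_eq_single_of_mem (π * σ) h]
      · rw [if_pos (by group), sgn_inv]
      · intro b _ hb
        rw [if_neg]
        intro h2
        exact hb (by rw [← h2]; group)
    · rw [if_neg h]
      symm
      refine Finset.sum_eq_zero fun a ha => ?_
      rw [if_neg]
      intro h2
      exact h (by rw [← h2]; simpa using ha)
  rw [Finset.sum_congr rfl fun π hπ => by rw [e1 π hπ, e2 π hπ]]
  have e3 : ∀ a ∈ A, ∀ k ∈ Γ, ∑ a1 ∈ A, ∑ γ ∈ Γ,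
      (if k * a = a1 * γ then ((((s a : ℤˣ) : ℤ) : ℂ) * (((s a1 : ℤˣ) : ℤ) : ℂ)) else 0) =
      ∑ π ∈ S, (∑ a1 ∈ A, ∑ γ ∈ Γ, if π = a1 * γ then (((s a1 : ℤˣ) : ℤ) : ℂ) else 0) *
        (if k * a = π then (((s a : ℤˣ) : ℤ) : ℂ) else 0) := by
    intro a ha k hk
    rw [Finset.sum_eq_single_of_mem (k * a) (hSm k (hGS hk) a (hAS ha))]
    · rw [if_pos rfl, Finset.sum_mul]
      refine Finset.sum_congr rfl fun a1 _ => ?_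
      rw [Finset.sum_mul]
      refine Finset.sum_congr rfl fun γ _ => ?_
      split_ifs <;> ring
    · intro b _ hb
      rw [if_neg (Ne.symm hb), mul_zero]
  have e4 : ∀ a ∈ A, (∑ a1 ∈ A, ∑ k ∈ Γ, ∑ γ ∈ Γ,
      (if k * a = a1 * γ then ((((s a : ℤˣ) : ℤ) : ℂ) * (((s a1 : ℤˣ) : ℤ) : ℂ)) else 0)) =
      ∑ k ∈ Γ, ∑ π ∈ S,
        (∑ a1 ∈ A, ∑ γ ∈ Γ, if π = a1 * γ then (((s a1 : ℤˣ) : ℤ) : ℂ) else 0) *
        (if k * a = π then (((s a : ℤˣ) : ℤ) : ℂ) else 0) := by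
    intro a ha
    rw [Finset.sum_comm]
    exact Finset.sum_congr rfl fun k hk => e3 a ha k hk
  rw [Finset.sum_congr rfl e4]
  rw [Finset.sum_congr rfl fun a (_ : a ∈ A) => Finset.sum_comm, Finset.sum_comm]
  refine Finset.sum_congr rfl fun π _ => ?_
  rw [Finset.mul_sum]
  refine Finset.sum_congr rfl fun a _ => ?_
  rw [Finset.mul_sum]

end Vale.Agent.P197.TS
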