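import Vale.Agent.P197.TS.GSpec

/-!
# Tensor squares (P197, question Q2), block COV (helper537): the covering inequality
-/

namespace Vale.Agent.P197.TS

open Finset

/-- a Young diagram is covered by its first `a` rows, its first `a` columns and a square -/
theorem card_cover (nu : YoungDiagram) (a w : ℕ) (h1 : (a, w + a) ∉ nu) (h2 : (w + a, a) ∉ nu) :
    nu.card ≤ a * nu.rowLen 0 + nu.colLen 0 * a + w * w := by
  classical
  have hsub : nu.cells ⊆ (range a ×ˢ range (nu.rowLen 0)) ∪ (range (nu.colLen 0) ×ˢ range a) ∪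
      (Ico a (w + a) ×ˢ Ico a (w + a)) := by
    rintro ⟨i, j⟩ hij
    have hm : (i, j) ∈ nu := hij
    simp only [mem_union, mem_product, mem_range, mem_Ico]
    rcases lt_or_ge i a with hi | hi
    · left; left
      have h3 : j < nu.rowLen i := YoungDiagram.mem_iff_lt_rowLen.1 hm
      exact ⟨hi, lt_of_lt_of_le h3 (nu.rowLen_anti 0 i (Nat.zero_le i))⟩
    rcases lt_or_ge j a with hj | hj
    · left; right
      have h3 : i < nu.colLen j := YoungDiagram.mem_iff_lt_colLen.1 hm
      exact ⟨lt_of_lt_of_le h3 (nu.colLen_anti 0 j (Nat.zero_le j)), hj⟩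
    right
    refine ⟨⟨hi, ?_⟩, ⟨hj, ?_⟩⟩
    · by_contra hcon
      exact h2 (nu.up_left_mem (not_lt.1 hcon) hj hm)
    · by_contra hcon
      exact h1 (nu.up_left_mem hi (not_lt.1 hcon) hm)
  have hc := card_le_card hsub
  have h3 := card_union_le ((range a ×ˢ range (nu.rowLen 0)) ∪ (range (nu.colLen 0) ×ˢ range a))
    (Ico a (w + a) ×ˢ Ico a (w + a))
  have h4 := card_union_le (range a ×ˢ range (nu.rowLen 0)) (range (nu.colLen 0) ×ˢ range a)
  simp only [card_product, card_range, Nat.card_Ico, Nat.add_sub_cancel] at h3 h4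
  show nu.cells.card ≤ _
  omega

/-- **[PCov]** -/
theorem pCov : PCov := by
  intro w e k nu he hk hn
  by_contra hcon
  push Not at hcon
  obtain ⟨h1, h2, h3, h4⟩ := hcon
  have h5 := card_cover nu 31 w h3 h4
  rw [hn] at h5
  have h6 : w ^ 2 = w * w := by ring
  rw [h6] at hk
  generalize w * w = W at *
  omega

end Vale.Agent.P197.TS
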