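import Vale.Agent.P197.TS.Spec

/-!
# Tensor squares: specification of geometry and arithmetic (P197, question Q2)
-/

namespace Vale.Agent.P197.TS

open Equiv Finset

noncomputable section

/-- (GEO) the self-conjugate diagram `lam` and its two lower parts -/
def PGeo : Prop := ∀ w e k : ℕ, 2 * k + 11 ≤ 4 * w →
  ∃ lam B B' : YoungDiagram, lam.transpose = lam ∧
    lam.card = 32 * w + 2 * e - 16 + k * (k + 1) / 2 ∧
    IsStack w e B lam ∧ B'.transpose = B ∧ IsStack (w - 1) e (staircase k) B' ∧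
    B.rowLen 0 = k + 4 ∧ (staircase k).rowLen 0 = k

/-- (COV) the covering inequality -/
def PCov : Prop := ∀ (w e k : ℕ) (nu : YoungDiagram), e ≤ 15 →
  w ^ 2 + 61 * (32 * w + 14) < k * (k + 1) / 2 →
  nu.card = 32 * w + 2 * e - 16 + k * (k + 1) / 2 →
    32 * w + 2 * e - 16 ≤ nu.rowLen 0 ∨ 32 * w + 2 * e - 16 ≤ nu.colLen 0 ∨
      (31, w + 31) ∈ nu ∨ (w + 31, 31) ∈ nu

/-- (ARI) the choice of the parameters -/
def PAri : Prop := ∀ n : ℕ, 100000000 ≤ n → ∃ k w e : ℕ, e ≤ 15 ∧ 2 * k + 11 ≤ 4 * w ∧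
  w ^ 2 + 61 * (32 * w + 14) < k * (k + 1) / 2 ∧
    n = 32 * w + 2 * e - 16 + k * (k + 1) / 2

/-- (REG) for `nu` with a long first row or a large rectangle, both gap steps work -/
def PReg : Prop := ∀ (w e k n : ℕ) (lam B B' nu : YoungDiagram), 2 * k + 11 ≤ 4 * w → e ≤ 15 →
  IsStack w e B lam → B'.transpose = B → IsStack (w - 1) e (staircase k) B' →
  B.rowLen 0 = k + 4 → (staircase k).rowLen 0 = k →
  n = 32 * w + 2 * e - 16 + k * (k + 1) / 2 → 
  (32 * w + 2 * e - 16 ≤ nu.rowLen 0 ∨ (31, w + 31) ∈ nu) →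
  ∀ t : Fin n ≃ nu.cells, Occ lam lam (fun x => (t x).1.1) (fun x => (t x).1.2)

end

end Vale.Agent.P197.TS
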