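import Vale.Agent.P197.TS.Spec

/-!
# Tensor squares: the gap lemma (P197, question Q2, block GAP)
-/

namespace Vale.Agent.P197.TS

open Equiv Finset

noncomputable section

namespace Gap

variable {X : Type} [Fintype X] [DecidableEq X]

/-- The kernel of the glued form: on pairs of words whose entries are `≥ 4` exactly on `Q`,
the product of `b₂` on `Q` shifted down by four and of `y` off `Q`. -/
def gapKer (Q : X → Prop) [DecidablePred Q]
    (y : ({x // ¬ Q x} → ℕ) → ({x // ¬ Q x} → ℕ) → ℂ) (b₂ : BF {x // Q x}) :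
    (X → ℕ) → (X → ℕ) → ℂ :=
  fun u u' => if (∀ x, Q x ↔ 4 ≤ u x) ∧ (∀ x, Q x ↔ 4 ≤ u' x) then
    b₂ (Finsupp.single (fun x => u x.1 - 4) 1) (Finsupp.single (fun x => u' x.1 - 4) 1) *
      y (resW (fun x => ¬ Q x) u) (resW (fun x => ¬ Q x) u')
  else 0

omit [Fintype X] [DecidableEq X] in
theorem pres_of_word4 {Q : X → Prop} {r : X → ℕ} (hr : ∀ x, Q x ↔ 4 ≤ r x) {g : Perm X}
    (h : ∀ x, Q x ↔ 4 ≤ (r ∘ ⇑(g⁻¹ : Perm X)) x) : Pres Q g := by
  intro x
  rw [h (g x), hr x, Function.comp_apply, inv_app]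

omit [DecidableEq X] in
theorem gapKer_left (Q : X → Prop) [DecidablePred Q]
    (y : ({x // ¬ Q x} → ℕ) → ({x // ¬ Q x} → ℕ) → ℂ) (b₂ : BF {x // Q x}) (r r' : X → ℕ)
    (hr : ∀ x, Q x ↔ 4 ≤ r x) (g : Perm X) (hg : ¬ Pres Q g) :
    gapKer Q y b₂ (r ∘ ⇑(g⁻¹ : Perm X)) r' = 0 := by
  unfold gapKer
  rw [if_neg]
  rintro ⟨h, -⟩
  exact hg (pres_of_word4 hr h)

omit [DecidableEq X] in
theorem gapKer_right (Q : X → Prop) [DecidablePred Q]
    (y : ({x // ¬ Q x} → ℕ) → ({x // ¬ Q x} → ℕ) → ℂ) (b₂ : BF {x // Q x}) (r r' : X → ℕ)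
    (hr : ∀ x, Q x ↔ 4 ≤ r x) (g : Perm X) (hg : ¬ Pres Q g) :
    gapKer Q y b₂ r' (r ∘ ⇑(g⁻¹ : Perm X)) = 0 := by
  unfold gapKer
  rw [if_neg]
  rintro ⟨-, h⟩
  exact hg (pres_of_word4 hr h)

/-- If the glued form does not vanish on the two translated polytabloids, then a translate by
the column groups preserves `Q`. -/
theorem exists_pres (Q : X → Prop) [DecidablePred Q]
    (y : ({x // ¬ Q x} → ℕ) → ({x // ¬ Q x} → ℕ) → ℂ) (b₂ : BF {x // Q x})
    (c c' r r' : X → ℕ) (hr : ∀ x, Q x ↔ 4 ≤ r x) (hr' : ∀ x, Q x ↔ 4 ≤ r' x) (g : Perm X)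
    (h : Fn (kform (gapKer Q y b₂)) (polyt c r) (polyt c' r') g ≠ 0) :
    (∃ π ∈ stab c, Pres Q (g * π)) ∧ ∃ π ∈ stab c', Pres Q (g * π) := by
  unfold Fn at h
  rw [bilin_polyt] at h
  obtain ⟨π, hπ, h1⟩ := Finset.exists_ne_zero_of_sum_ne_zero h
  obtain ⟨π', hπ', h2⟩ := Finset.exists_ne_zero_of_sum_ne_zero h1
  have h3 := right_ne_zero_of_mul (right_ne_zero_of_mul h2)
  rw [kform_single, one_mul, one_mul] at h3
  refine ⟨⟨π, hπ, ?_⟩, ⟨π', hπ', ?_⟩⟩
  · by_contra hn
    exact h3 (gapKer_left Q y b₂ r _ hr (g * π) hn)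
  · by_contra hn
    exact h3 (gapKer_right Q y b₂ r' _ hr' (g * π') hn)

/-- The glued form on block-preserving translates of polytabloids factorises. -/
theorem gap_factor (Q : X → Prop) [DecidablePred Q]
    (y : ({x // ¬ Q x} → ℕ) → ({x // ¬ Q x} → ℕ) → ℂ) (b₂ : BF {x // Q x})
    (c c' r r' : X → ℕ) (hr : ∀ x, Q x ↔ 4 ≤ r x) (hr' : ∀ x, Q x ↔ 4 ≤ r' x)
    (a : Perm {x // Q x}) (b : Perm {x // ¬ Q x}) :
    Fn (kform (gapKer Q y b₂)) (polyt c r) (polyt c' r') (Perm.subtypeCongr a b) =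
      Fn b₂ (polyt (resW Q c) (fun x => r x.1 - 4)) (polyt (resW Q c') (fun x => r' x.1 - 4)) a *
      Fn (kform y) (polyt (resW (fun x => ¬ Q x) c) (resW (fun x => ¬ Q x) r))
        (polyt (resW (fun x => ¬ Q x) c') (resW (fun x => ¬ Q x) r')) b := by
  classical
  unfold Fn
  rw [bilin_polyt, bilin_polyt, bilin_polyt]
  have H : Pres Q (Perm.subtypeCongr a b) := subtypeCongr_preserve Q a b
  rw [sum_stab_block Q c]
  swap
  · intro g hg
    refine Finset.sum_eq_zero (fun π' _ => ?_)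
    have hng : ¬ Pres Q (Perm.subtypeCongr a b * g) := by
      intro hh
      apply hg
      have := (Pres.inv H).mul hh
      rwa [inv_mul_cancel_left] at this
    rw [kform_single, gapKer_left Q y b₂ r _ hr _ hng]
    simp
  have key : ∀ (a₁ : Perm {x // Q x}) (b₁ : Perm {x // ¬ Q x}),
      ∑ π' ∈ stab c', ((Perm.sign (Perm.subtypeCongr a₁ b₁) : ℤ) : ℂ) *
        (((Perm.sign π' : ℤ) : ℂ) * kform (gapKer Q y b₂)
          (Finsupp.single (r ∘ ⇑((Perm.subtypeCongr a b * Perm.subtypeCongr a₁ b₁)⁻¹ : Perm X))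
            (1 : ℂ))
          (Finsupp.single (r' ∘ ⇑((Perm.subtypeCongr a b * π')⁻¹ : Perm X)) (1 : ℂ))) =
      ∑ a' ∈ stab (resW Q c'), ∑ b' ∈ stab (resW (fun x => ¬ Q x) c'),
        ((Perm.sign (Perm.subtypeCongr a₁ b₁) : ℤ) : ℂ) *
        (((Perm.sign (Perm.subtypeCongr a' b') : ℤ) : ℂ) * kform (gapKer Q y b₂)
          (Finsupp.single (r ∘ ⇑((Perm.subtypeCongr a b * Perm.subtypeCongr a₁ b₁)⁻¹ : Perm X))
            (1 : ℂ))
          (Finsupp.single (r' ∘ ⇑((Perm.subtypeCongr a b * Perm.subtypeCongr a' b')⁻¹ : Perm X))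
            (1 : ℂ))) := by
    intro a₁ b₁
    rw [sum_stab_block Q c']
    intro g hg
    have hng : ¬ Pres Q (Perm.subtypeCongr a b * g) := by
      intro hh
      apply hg
      have := (Pres.inv H).mul hh
      rwa [inv_mul_cancel_left] at this
    rw [kform_single, gapKer_right Q y b₂ r' _ hr' _ hng]
    simp
  have hword : ∀ (s : X → ℕ) (_ : ∀ x, Q x ↔ 4 ≤ s x) (a₁ : Perm {x // Q x})
      (b₁ : Perm {x // ¬ Q x}),
      (∀ x, Q x ↔ 4 ≤ (s ∘ ⇑((Perm.subtypeCongr a b * Perm.subtypeCongr a₁ b₁)⁻¹ : Perm X)) x) ∧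
      resW (fun x => ¬ Q x)
          (s ∘ ⇑((Perm.subtypeCongr a b * Perm.subtypeCongr a₁ b₁)⁻¹ : Perm X)) =
        resW (fun x => ¬ Q x) s ∘ ⇑((b * b₁)⁻¹ : Perm {x // ¬ Q x}) ∧
      (fun x : {x // Q x} =>
          (s ∘ ⇑((Perm.subtypeCongr a b * Perm.subtypeCongr a₁ b₁)⁻¹ : Perm X)) x.1 - 4) =
        (fun x : {x // Q x} => s x.1 - 4) ∘ ⇑((a * a₁)⁻¹ : Perm {x // Q x}) := by
    intro s hs a₁ b₁
    have hkk : (Perm.subtypeCongr a b * Perm.subtypeCongr a₁ b₁)⁻¹ =
        Perm.subtypeCongr (a * a₁)⁻¹ (b * b₁)⁻¹ := by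
      rw [← subtypeCongr_inv, subtypeCongr_mul]
    refine ⟨?_, ?_, ?_⟩
    · intro x
      rw [Function.comp_apply, ← hs, hkk, subtypeCongr_preserve Q]
    · funext x
      unfold resW
      rw [Function.comp_apply, hkk, Perm.subtypeCongr.right_apply _ _ x.2]
      rfl
    · funext x
      rw [Function.comp_apply, Function.comp_apply, hkk, Perm.subtypeCongr.left_apply _ _ x.2]
  rw [Finset.sum_congr rfl (fun a₁ _ => Finset.sum_congr rfl (fun b₁ _ => key a₁ b₁))]
  rw [Finset.sum_mul_sum]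
  refine Finset.sum_congr rfl (fun a₁ _ => ?_)
  refine Finset.sum_congr rfl (fun b₁ _ => ?_)
  rw [Finset.sum_mul_sum]
  refine Finset.sum_congr rfl (fun a' _ => ?_)
  refine Finset.sum_congr rfl (fun b' _ => ?_)
  obtain ⟨w1, w2, w3⟩ := hword r hr a₁ b₁
  obtain ⟨w1', w2', w3'⟩ := hword r' hr' a' b'
  rw [kform_single, kform_single]
  unfold gapKer
  rw [if_pos ⟨w1, w1'⟩, w2, w2', w3, w3', Perm.sign_subtypeCongr, Perm.sign_subtypeCongr]
  push_cast
  ring

/-- Separation by the box `[0, b)²`. -/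
theorem pres_of_box (Q : X → Prop) [DecidablePred Q] (c c' : X → ℕ) (b : ℕ)
    (h1 : ∀ x, Q x → c x < b) (h2 : ∀ x, Q x → c' x < b)
    (h3 : ∀ x, ¬ Q x → b ≤ c x ∨ b ≤ c' x) (g : Perm X)
    (hπ : ∃ π ∈ stab c, Pres Q (g * π)) (hπ' : ∃ π ∈ stab c', Pres Q (g * π)) :
    Pres Q g := by
  classical
  have main : ∀ x, ¬ Q x → ¬ Q (g x) := by
    intro x hx
    have aux : ∀ d : X → ℕ, (∀ x, Q x → d x < b) → (∃ π ∈ stab d, Pres Q (g * π)) → b ≤ d x →
        ¬ Q (g x) := by
      intro d hd hex hbx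
      obtain ⟨π, hπs, hpres⟩ := hex
      rw [mem_stab] at hπs
      have e1 : d (π⁻¹ x) = d x := by
        have := hπs (π⁻¹ x)
        rw [app_inv] at this
        exact this.symm
      have e2 : ¬ Q (π⁻¹ x) := by
        intro hq
        have := hd _ hq
        omega
      have e3 := hpres (π⁻¹ x)
      rw [Perm.mul_apply, app_inv] at e3
      rw [e3]
      exact e2
    rcases h3 x hx with h | h
    · exact aux c h1 hπ h
    · exact aux c' h2 hπ' h
  -- `g` maps the finite complement of `Q` into itself, hence onto itself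
  set S : Finset X := univ.filter (fun x => ¬ Q x) with hS
  have hsub : S.image g ⊆ S := by
    intro z hz
    obtain ⟨x, hx, rfl⟩ := Finset.mem_image.1 hz
    exact Finset.mem_filter.2 ⟨Finset.mem_univ _, main x (Finset.mem_filter.1 hx).2⟩
  have heq : S.image g = S := by
    refine Finset.eq_of_subset_of_card_le hsub ?_
    rw [Finset.card_image_of_injective _ g.injective]
  intro x
  constructor
  · intro hq
    by_contra hn
    exact main x hn hq
  · intro hq
    by_contra hn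
    have hmem : g x ∈ S := Finset.mem_filter.2 ⟨Finset.mem_univ _, hn⟩
    rw [← heq] at hmem
    obtain ⟨z, hz, hzx⟩ := Finset.mem_image.1 hmem
    have : z = x := g.injective hzx
    rw [this] at hz
    exact (Finset.mem_filter.1 hz).2 hq

theorem occ_add (rl cl : X → ℕ) (F G : Perm X → ℂ) :
    occ rl cl (F + G) = occ rl cl F + occ rl cl G := by
  unfold occ
  rw [← Finset.sum_add_distrib]
  refine Finset.sum_congr rfl (fun ρ _ => ?_)
  rw [← Finset.sum_add_distrib]
  refine Finset.sum_congr rfl (fun π _ => ?_)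
  rw [Pi.add_apply, mul_add]

theorem occ_smul (rl cl : X → ℕ) (a : ℂ) (F : Perm X → ℂ) :
    occ rl cl (a • F) = a * occ rl cl F := by
  unfold occ
  rw [Finset.mul_sum]
  refine Finset.sum_congr rfl (fun ρ _ => ?_)
  rw [Finset.mul_sum]
  refine Finset.sum_congr rfl (fun π _ => ?_)
  rw [Pi.smul_apply, smul_eq_mul]
  ring

theorem occ_zero (rl cl : X → ℕ) : occ rl cl (0 : Perm X → ℂ) = 0 := by
  unfold occ
  simp

/-- A nonvanishing occurrence sum on a tensor product of Specht modules does not vanish on two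
polytabloids. -/
theorem exists_tab (lam mu : YoungDiagram) (rl cl : X → ℕ) (b : BF X) (v w : WM X)
    (hv : v ∈ Sp X lam) (hw : w ∈ Sp X mu) (h : occ rl cl (Fn b v w) ≠ 0) :
    ∃ (t : X ≃ lam.cells) (t' : X ≃ mu.cells),
      occ rl cl (Fn b (polyt (fun x => (t x).1.2) (fun x => (t x).1.1))
        (polyt (fun x => (t' x).1.2) (fun x => (t' x).1.1))) ≠ 0 := by
  by_contra hcon
  push Not at hcon
  apply h
  clear h
  have step : ∀ w' ∈ Sp X mu, ∀ t : X ≃ lam.cells,
      occ rl cl (Fn b (polyt (fun x => (t x).1.2) (fun x => (t x).1.1)) w') = 0 := by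
    intro w' hw' t
    unfold Sp at hw'
    induction hw' using Submodule.span_induction with
    | mem z hz =>
      obtain ⟨t', rfl⟩ := hz
      exact hcon t t'
    | zero =>
      have : Fn b (polyt (fun x => (t x).1.2) (fun x => (t x).1.1)) 0 = 0 := by
        funext g
        simp [Fn]
      rw [this, occ_zero]
    | add z z' _ _ h1 h2 =>
      have : Fn b (polyt (fun x => (t x).1.2) (fun x => (t x).1.1)) (z + z') =
          Fn b (polyt (fun x => (t x).1.2) (fun x => (t x).1.1)) z +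
          Fn b (polyt (fun x => (t x).1.2) (fun x => (t x).1.1)) z' := by
        funext g
        simp [Fn]
      rw [this, occ_add, h1, h2, add_zero]
    | smul a z _ h1 =>
      have : Fn b (polyt (fun x => (t x).1.2) (fun x => (t x).1.1)) (a • z) =
          a • Fn b (polyt (fun x => (t x).1.2) (fun x => (t x).1.1)) z := by
        funext g
        simp [Fn]
      rw [this, occ_smul, h1, mul_zero]
  unfold Sp at hv
  induction hv using Submodule.span_induction with
  | mem z hz =>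
    obtain ⟨t, rfl⟩ := hz
    exact step w hw t
  | zero =>
    have : Fn b 0 w = 0 := by
      funext g
      simp [Fn]
    rw [this, occ_zero]
  | add z z' _ _ h1 h2 =>
    have : Fn b (z + z') w = Fn b z w + Fn b z' w := by
      funext g
      simp [Fn]
    rw [this, occ_add, h1, h2, add_zero]
  | smul a z _ h1 =>
    have : Fn b (a • z) w = a • Fn b z w := by
      funext g
      simp [Fn]
    rw [this, occ_smul, h1, mul_zero]

/-- Gluing two tableaux gives a tableau of the stack. -/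
theorem glue_mem (Q : X → Prop) [DecidablePred Q] {w e : ℕ} {kap lam : YoungDiagram}
    (hst : IsStack w e kap lam) (t : {x // Q x} ≃ kap.cells) (r j : {x // ¬ Q x} → ℕ)
    (hT : IsTop w e r j) (R C : X → ℕ) (hR1 : ∀ x (h : Q x), R x = (t ⟨x, h⟩).1.1 + 4)
    (hR2 : ∀ x (h : ¬ Q x), R x = r ⟨x, h⟩) (hC1 : ∀ x (h : Q x), C x = (t ⟨x, h⟩).1.2)
    (hC2 : ∀ x (h : ¬ Q x), C x = j ⟨x, h⟩) : polyt C R ∈ Sp X lam := by
  have hlt : ∀ x, ¬ Q x → R x < 4 := by
    intro x hx
    rw [hR2 x hx]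
    rcases hT.mem ⟨x, hx⟩ with h | h
    · exact h.1
    · omega
  have hge : ∀ x, Q x → 4 ≤ R x := by
    intro x hx
    rw [hR1 x hx]
    omega
  have hmem : ∀ x, (R x, C x) ∈ lam.cells := by
    intro x
    rw [YoungDiagram.mem_cells, hst]
    by_cases hx : Q x
    · right
      refine ⟨hge x hx, ?_⟩
      have h2 := (t ⟨x, hx⟩).2
      rw [hR1 x hx, hC1 x hx, Nat.add_sub_cancel]
      exact h2
    · left
      rw [hR2 x hx, hC2 x hx]
      exact hT.mem ⟨x, hx⟩
  have hbij : Function.Bijective (fun x : X => (⟨(R x, C x), hmem x⟩ : lam.cells)) := by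
    constructor
    · intro x x' hxx
      have h1 : (R x, C x) = (R x', C x') := congrArg Subtype.val hxx
      have hRR : R x = R x' := congrArg Prod.fst h1
      have hCC : C x = C x' := congrArg Prod.snd h1
      by_cases hx : Q x
      · have hx' : Q x' := by
          by_contra hn
          have := hlt x' hn
          have := hge x hx
          omega
        have h3 : t ⟨x, hx⟩ = t ⟨x', hx'⟩ := by
          apply Subtype.ext
          apply Prod.ext
          · have := hR1 x hx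
            have := hR1 x' hx'
            omega
          · have := hC1 x hx
            have := hC1 x' hx'
            omega
        exact congrArg Subtype.val (t.injective h3)
      · have hx' : ¬ Q x' := by
          intro hq
          have := hlt x hx
          have := hge x' hq
          omega
        have h3 := hT.inj ⟨x, hx⟩ ⟨x', hx'⟩ (by rw [← hR2 x hx, ← hR2 x' hx', hRR])
          (by rw [← hC2 x hx, ← hC2 x' hx', hCC])
        exact congrArg Subtype.val h3
    · rintro ⟨⟨a, c⟩, hac⟩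
      have h1 := (hst a c).1 ((YoungDiagram.mem_cells _).1 hac)
      rcases h1 with h1 | ⟨h4, h1⟩
      · obtain ⟨y, hy1, hy2⟩ := hT.surj a c h1
        refine ⟨y.1, Subtype.ext (Prod.ext ?_ ?_)⟩
        · change R y.1 = a
          rw [hR2 y.1 y.2, ← hy1]
        · change C y.1 = c
          rw [hC2 y.1 y.2, ← hy2]
      · set z := t.symm ⟨(a - 4, c), (YoungDiagram.mem_cells _).2 h1⟩ with hz
        have hz' : t ⟨z.1, z.2⟩ = ⟨(a - 4, c), (YoungDiagram.mem_cells _).2 h1⟩ := by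
          rw [hz]
          simp
        refine ⟨z.1, Subtype.ext (Prod.ext ?_ ?_)⟩
        · change R z.1 = a
          rw [hR1 z.1 z.2, hz']
          change a - 4 + 4 = a
          omega
        · change C z.1 = c
          rw [hC1 z.1 z.2, hz']
  refine Submodule.subset_span ⟨Equiv.ofBijective _ hbij, ?_⟩
  rfl

end Gap

/-- **The gap lemma.** -/
theorem gap : PGap := by
  intro X _ _ Q _ w e kap lam hst rl cl bd hbd hTD hOcc
  classical
  obtain ⟨r, j, r', i, hT, hT', hbox, y, hy⟩ := hTD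
  obtain ⟨b₂, v, hv, v', hv', hne⟩ := hOcc
  obtain ⟨t, t', htt⟩ := Gap.exists_tab kap kap _ _ b₂ v v' hv hv' hne
  set C : X → ℕ := fun x => if h : Q x then (t ⟨x, h⟩).1.2 else j ⟨x, h⟩ with hC
  set R : X → ℕ := fun x => if h : Q x then (t ⟨x, h⟩).1.1 + 4 else r ⟨x, h⟩ with hR
  set C' : X → ℕ := fun x => if h : Q x then (t' ⟨x, h⟩).1.2 else i ⟨x, h⟩ with hC'
  set R' : X → ℕ := fun x => if h : Q x then (t' ⟨x, h⟩).1.1 + 4 else r' ⟨x, h⟩ with hR'
  have hR1 : ∀ x (h : Q x), R x = (t ⟨x, h⟩).1.1 + 4 := fun x h => by rw [hR]; simp [h]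
  have hR2 : ∀ x (h : ¬ Q x), R x = r ⟨x, h⟩ := fun x h => by rw [hR]; simp [h]
  have hC1 : ∀ x (h : Q x), C x = (t ⟨x, h⟩).1.2 := fun x h => by rw [hC]; simp [h]
  have hC2 : ∀ x (h : ¬ Q x), C x = j ⟨x, h⟩ := fun x h => by rw [hC]; simp [h]
  have hR1' : ∀ x (h : Q x), R' x = (t' ⟨x, h⟩).1.1 + 4 := fun x h => by rw [hR']; simp [h]
  have hR2' : ∀ x (h : ¬ Q x), R' x = r' ⟨x, h⟩ := fun x h => by rw [hR']; simp [h]
  have hC1' : ∀ x (h : Q x), C' x = (t' ⟨x, h⟩).1.2 := fun x h => by rw [hC']; simp [h]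
  have hC2' : ∀ x (h : ¬ Q x), C' x = i ⟨x, h⟩ := fun x h => by rw [hC']; simp [h]
  have hlt4 : ∀ {s k : {x // ¬ Q x} → ℕ}, IsTop w e s k → ∀ y, s y < 4 := by
    intro s k h y
    rcases h.mem y with h | h
    · exact h.1
    · omega
  have hr : ∀ x, Q x ↔ 4 ≤ R x := by
    intro x
    by_cases hx : Q x
    · rw [hR1 x hx]
      exact ⟨fun _ => by omega, fun _ => hx⟩
    · rw [hR2 x hx]
      have := hlt4 hT ⟨x, hx⟩
      exact ⟨fun h => absurd h hx, fun h => by omega⟩
  have hr' : ∀ x, Q x ↔ 4 ≤ R' x := by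
    intro x
    by_cases hx : Q x
    · rw [hR1' x hx]
      exact ⟨fun _ => by omega, fun _ => hx⟩
    · rw [hR2' x hx]
      have := hlt4 hT' ⟨x, hx⟩
      exact ⟨fun h => absurd h hx, fun h => by omega⟩
  have hcol : ∀ (s : {x // Q x} ≃ kap.cells) (x : {x // Q x}),
      (s x).1.2 < kap.rowLen 0 := by
    intro s x
    have h1 : ((s x).1.1, (s x).1.2) ∈ kap := (s x).2
    have h2 := YoungDiagram.mem_iff_lt_rowLen.1 h1
    exact lt_of_lt_of_le h2 (kap.rowLen_anti 0 _ (Nat.zero_le _))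
  refine ⟨kform (Gap.gapKer Q y b₂), polyt C R, Gap.glue_mem Q hst t r j hT R C hR1 hR2 hC1 hC2,
    polyt C' R', Gap.glue_mem Q hst t' r' i hT' R' C' hR1' hR2' hC1' hC2', ?_⟩
  have e1 : resW Q C = fun x => (t x).1.2 := funext fun x => hC1 x.1 x.2
  have e2 : (fun x : {x // Q x} => R x.1 - 4) = fun x => (t x).1.1 := funext fun x => by
    rw [hR1 x.1 x.2, Nat.add_sub_cancel]
  have e3 : resW (fun x => ¬ Q x) C = j := funext fun x => hC2 x.1 x.2
  have e4 : resW (fun x => ¬ Q x) R = r := funext fun x => hR2 x.1 x.2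
  have e1' : resW Q C' = fun x => (t' x).1.2 := funext fun x => hC1' x.1 x.2
  have e2' : (fun x : {x // Q x} => R' x.1 - 4) = fun x => (t' x).1.1 := funext fun x => by
    rw [hR1' x.1 x.2, Nat.add_sub_cancel]
  have e3' : resW (fun x => ¬ Q x) C' = i := funext fun x => hC2' x.1 x.2
  have e4' : resW (fun x => ¬ Q x) R' = r' := funext fun x => hR2' x.1 x.2
  have hzero : ∀ g, Fn (kform (Gap.gapKer Q y b₂)) (polyt C R) (polyt C' R') g ≠ 0 →
      ∀ x, Q (g x) ↔ Q x := by
    intro g hg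
    obtain ⟨h1, h2⟩ := Gap.exists_pres Q y b₂ C C' R R' hr hr' g hg
    refine Gap.pres_of_box Q C C' (kap.rowLen 0) ?_ ?_ ?_ g h1 h2
    · intro x hx
      rw [hC1 x hx]
      exact hcol t ⟨x, hx⟩
    · intro x hx
      rw [hC1' x hx]
      exact hcol t' ⟨x, hx⟩
    · intro x hx
      rw [hC2 x hx, hC2' x hx]
      exact hbox ⟨x, hx⟩
  have key := occ_factor Q rl cl bd hbd
    (Fn (kform (Gap.gapKer Q y b₂)) (polyt C R) (polyt C' R')) _ _ hzero
    (fun a b => Gap.gap_factor Q y b₂ C C' R R' hr hr' a b) 1 1 1 1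
  have hone : (Perm.subtypeCongr (1 : Perm {x // Q x}) (1 : Perm {x // ¬ Q x})) = 1 := by
    ext x
    by_cases hx : Q x
    · rw [Perm.subtypeCongr.left_apply _ _ hx]
      rfl
    · rw [Perm.subtypeCongr.right_apply _ _ hx]
      rfl
  rw [hone, e1, e2, e3, e4, e1', e2', e3', e4'] at key
  simp only [inv_one, one_mul, mul_one] at key
  have key' : occ rl cl (Fn (kform (Gap.gapKer Q y b₂)) (polyt C R) (polyt C' R')) =
      occ (resW Q rl) (resW Q cl) (Fn b₂ (polyt (fun x => (t x).1.2) (fun x => (t x).1.1))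
        (polyt (fun x => (t' x).1.2) (fun x => (t' x).1.1))) *
      occ (resW (fun x => ¬ Q x) rl) (resW (fun x => ¬ Q x) cl)
        (Fn (kform y) (polyt j r) (polyt i r')) := key
  rw [key']
  exact mul_ne_zero htt hy

end

end Vale.Agent.P197.TS
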