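import Vale.Agent.P197.TS.Spec

/-!
# Tensor squares: the gap lemma (P197, question Q2), helper528
-/

set_option linter.all false

namespace Vale.Agent.P197.TS.G528

open Equiv Finset Vale.Agent.P197 Vale.Agent.P197.TS

noncomputable section

variable {X : Type} [Fintype X] [DecidableEq X]

/-- The glued kernel. -/
def gapKer (Q : X → Prop) [DecidablePred Q] (b : BF {x // Q x})
    (y : ({x // ¬ Q x} → ℕ) → ({x // ¬ Q x} → ℕ) → ℂ) : (X → ℕ) → (X → ℕ) → ℂ :=
  fun u u' => if (∀ x, Q x ↔ 4 ≤ u x) ∧ (∀ x, Q x ↔ 4 ≤ u' x) then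
    b (Finsupp.single (fun x => u x.1 - 4) 1) (Finsupp.single (fun x => u' x.1 - 4) 1) *
      y (resW (fun x => ¬ Q x) u) (resW (fun x => ¬ Q x) u')
  else 0

omit [Fintype X] [DecidableEq X] in
theorem pres_of_word4 {Q : X → Prop} {r : X → ℕ} (hr : ∀ x, Q x ↔ 4 ≤ r x) {g : Perm X}
    (h : ∀ x, Q x ↔ 4 ≤ (r ∘ ⇑(g⁻¹ : Perm X)) x) : Pres Q g := by
  intro x
  rw [h (g x), hr x, Function.comp_apply, inv_app]

theorem gapKer_eq_zero (Q : X → Prop) [DecidablePred Q] (b : BF {x // Q x})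
    (y : ({x // ¬ Q x} → ℕ) → ({x // ¬ Q x} → ℕ) → ℂ) (r r' : X → ℕ)
    (hr : ∀ x, Q x ↔ 4 ≤ r x) (g : Perm X) (hg : ¬ Pres Q g) :
    gapKer Q b y (r ∘ ⇑(g⁻¹ : Perm X)) r' = 0 ∧ gapKer Q b y r' (r ∘ ⇑(g⁻¹ : Perm X)) = 0 := by
  constructor
  · unfold gapKer
    rw [if_neg]
    rintro ⟨h, -⟩
    exact hg (pres_of_word4 hr h)
  · unfold gapKer
    rw [if_neg]
    rintro ⟨-, h⟩
    exact hg (pres_of_word4 hr h)

/-- The glued form on block-preserving translates of polytabloids factorises. -/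
theorem gap_factor (Q : X → Prop) [DecidablePred Q] (b : BF {x // Q x})
    (y : ({x // ¬ Q x} → ℕ) → ({x // ¬ Q x} → ℕ) → ℂ) (c c' r r' : X → ℕ)
    (hr : ∀ x, Q x ↔ 4 ≤ r x) (hr' : ∀ x, Q x ↔ 4 ≤ r' x) (h : Perm X)
    (H : ∀ x, Q (h x) ↔ Q x) :
    kform (gapKer Q b y) (wordRep X h (polyt c r)) (wordRep X h (polyt c' r')) =
      b (wordRep _ (h.subtypePerm H) (polyt (resW Q c) (fun x => r x.1 - 4)))
        (wordRep _ (h.subtypePerm H) (polyt (resW Q c') (fun x => r' x.1 - 4))) *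
      kform y (wordRep _ (h.subtypePerm fun x => not_congr (H x))
          (polyt (resW (fun x => ¬ Q x) c) (resW (fun x => ¬ Q x) r)))
        (wordRep _ (h.subtypePerm fun x => not_congr (H x))
          (polyt (resW (fun x => ¬ Q x) c') (resW (fun x => ¬ Q x) r'))) := by
  classical
  rw [bilin_polyt, bilin_polyt, bilin_polyt]
  rw [sum_stab_block Q c]
  swap
  · intro g hg
    refine Finset.sum_eq_zero (fun π' _ => ?_)
    have hng : ¬ Pres Q (h * g) := by
      intro hh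
      apply hg
      have := (Pres.inv H).mul hh
      rwa [inv_mul_cancel_left] at this
    rw [kform_single, (gapKer_eq_zero Q b y r _ hr (h * g) hng).1]
    simp
  have key : ∀ (a : Perm {x // Q x}) (d : Perm {x // ¬ Q x}),
      ∑ π' ∈ stab c', ((Perm.sign (Perm.subtypeCongr a d) : ℤ) : ℂ) *
        (((Perm.sign π' : ℤ) : ℂ) * kform (gapKer Q b y)
          (Finsupp.single (r ∘ ⇑((h * Perm.subtypeCongr a d)⁻¹ : Perm X)) (1 : ℂ))
          (Finsupp.single (r' ∘ ⇑((h * π')⁻¹ : Perm X)) (1 : ℂ))) =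
      ∑ a' ∈ stab (resW Q c'), ∑ d' ∈ stab (resW (fun x => ¬ Q x) c'),
        ((Perm.sign (Perm.subtypeCongr a d) : ℤ) : ℂ) *
        (((Perm.sign (Perm.subtypeCongr a' d') : ℤ) : ℂ) * kform (gapKer Q b y)
          (Finsupp.single (r ∘ ⇑((h * Perm.subtypeCongr a d)⁻¹ : Perm X)) (1 : ℂ))
          (Finsupp.single (r' ∘ ⇑((h * Perm.subtypeCongr a' d')⁻¹ : Perm X)) (1 : ℂ))) := by
    intro a d
    rw [sum_stab_block Q c']
    intro g hg
    have hng : ¬ Pres Q (h * g) := by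
      intro hh
      apply hg
      have := (Pres.inv H).mul hh
      rwa [inv_mul_cancel_left] at this
    rw [kform_single, (gapKer_eq_zero Q b y r' _ hr' (h * g) hng).2]
    simp
  have hword : ∀ (r : X → ℕ) (hr : ∀ x, Q x ↔ 4 ≤ r x) (a : Perm {x // Q x})
      (d : Perm {x // ¬ Q x}),
      (∀ x, Q x ↔ 4 ≤ (r ∘ ⇑((h * Perm.subtypeCongr a d)⁻¹ : Perm X)) x) ∧
      (fun x : {x // Q x} => (r ∘ ⇑((h * Perm.subtypeCongr a d)⁻¹ : Perm X)) x.1 - 4) =
        (fun x : {x // Q x} => r x.1 - 4) ∘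
          ⇑((h.subtypePerm H * a)⁻¹ : Perm {x // Q x}) ∧
      resW (fun x => ¬ Q x) (r ∘ ⇑((h * Perm.subtypeCongr a d)⁻¹ : Perm X)) =
        resW (fun x => ¬ Q x) r ∘
          ⇑((h.subtypePerm (fun x => not_congr (H x)) * d)⁻¹ : Perm {x // ¬ Q x}) := by
    intro r hr a d
    have hk : h = Perm.subtypeCongr (h.subtypePerm H)
        (h.subtypePerm fun x => not_congr (H x)) := by
      ext x
      by_cases hx : Q x
      · rw [Perm.subtypeCongr.left_apply _ _ hx]
        rfl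
      · rw [Perm.subtypeCongr.right_apply _ _ hx]
        rfl
    have hkk : (h * Perm.subtypeCongr a d)⁻¹ =
        Perm.subtypeCongr (h.subtypePerm H * a)⁻¹
          (h.subtypePerm (fun x => not_congr (H x)) * d)⁻¹ := by
      rw [← subtypeCongr_inv, subtypeCongr_mul, ← hk]
    refine ⟨?_, ?_, ?_⟩
    · intro x
      rw [Function.comp_apply, ← hr, hkk, subtypeCongr_preserve Q]
    · funext x
      rw [Function.comp_apply, Function.comp_apply, hkk, Perm.subtypeCongr.left_apply _ _ x.2]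
    · funext x
      unfold resW
      rw [Function.comp_apply, hkk, Perm.subtypeCongr.right_apply _ _ x.2]
      rfl
  rw [Finset.sum_congr rfl (fun a _ => Finset.sum_congr rfl (fun d _ => key a d))]
  rw [Finset.sum_mul_sum]
  refine Finset.sum_congr rfl (fun a _ => ?_)
  refine Finset.sum_congr rfl (fun d _ => ?_)
  rw [Finset.sum_mul_sum]
  refine Finset.sum_congr rfl (fun a' _ => ?_)
  refine Finset.sum_congr rfl (fun d' _ => ?_)
  obtain ⟨w1, w2, w3⟩ := hword r hr a d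
  obtain ⟨w1', w2', w3'⟩ := hword r' hr' a' d'
  rw [kform_single, kform_single]
  unfold gapKer
  rw [if_pos ⟨w1, w1'⟩, w2, w2', w3, w3', Perm.sign_subtypeCongr, Perm.sign_subtypeCongr]
  push_cast
  ring

/-- Off the block-preserving permutations the glued form vanishes. -/
theorem gap_zero (Q : X → Prop) [DecidablePred Q] (b : BF {x // Q x})
    (y : ({x // ¬ Q x} → ℕ) → ({x // ¬ Q x} → ℕ) → ℂ) (B : ℕ) (c c' r r' : X → ℕ)
    (hr : ∀ x, Q x ↔ 4 ≤ r x) (hr' : ∀ x, Q x ↔ 4 ≤ r' x)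
    (hc : ∀ x, Q x → c x < B) (hc' : ∀ x, Q x → c' x < B)
    (hgap : ∀ x, ¬ Q x → B ≤ c x ∨ B ≤ c' x) (h : Perm X) (H : ¬ ∀ x, Q (h x) ↔ Q x) :
    kform (gapKer Q b y) (wordRep X h (polyt c r)) (wordRep X h (polyt c' r')) = 0 := by
  classical
  rw [bilin_polyt]
  by_contra hne
  obtain ⟨π, hπ, h1⟩ := Finset.exists_ne_zero_of_sum_ne_zero hne
  obtain ⟨π', hπ', h2⟩ := Finset.exists_ne_zero_of_sum_ne_zero h1
  rw [kform_single] at h2
  have p1 : Pres Q (h * π) := by
    by_contra hng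
    apply h2
    rw [(gapKer_eq_zero Q b y r _ hr (h * π) hng).1]
    simp
  have p2 : Pres Q (h * π') := by
    by_contra hng
    apply h2
    rw [(gapKer_eq_zero Q b y r' _ hr' (h * π') hng).2]
    simp
  rw [mem_stab] at hπ hπ'
  -- `h` maps the inner part into itself
  have h3 : ∀ x, ¬ Q x → ¬ Q (h x) := by
    intro x hx
    have aux : ∀ (c : X → ℕ) (π : Perm X), (∀ x, c (π x) = c x) → (∀ x, Q x → c x < B) →
        Pres Q (h * π) → B ≤ c x → ¬ Q (h x) := by
      intro c π hπ hc p hB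
      have e1 : c (π⁻¹ x) = c x := by
        have := hπ (π⁻¹ x)
        rw [app_inv] at this
        exact this.symm
      have e2 : ¬ Q (π⁻¹ x) := by
        intro hq
        have := hc _ hq
        omega
      have e3 := p (π⁻¹ x)
      rw [Perm.mul_apply, app_inv] at e3
      rw [e3]
      exact e2
    rcases hgap x hx with hB | hB
    · exact aux c π hπ hc p1 hB
    · exact aux c' π' hπ' hc' p2 hB
  apply H
  -- counting
  set A : Finset X := univ.filter (fun x => ¬ Q x) with hA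
  have hsub : A.image h ⊆ A := by
    intro z hz
    rw [Finset.mem_image] at hz
    obtain ⟨x, hx, rfl⟩ := hz
    rw [hA, Finset.mem_filter] at hx ⊢
    exact ⟨Finset.mem_univ _, h3 x hx.2⟩
  have heq : A.image h = A :=
    Finset.eq_of_subset_of_card_le hsub (by rw [Finset.card_image_of_injective _ h.injective])
  intro x
  constructor
  · intro hx
    by_contra hq
    exact h3 x hq hx
  · intro hx
    by_contra hq
    have : h x ∈ A.image h := by
      rw [heq, hA, Finset.mem_filter]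
      exact ⟨Finset.mem_univ _, hq⟩
    rw [Finset.mem_image] at this
    obtain ⟨z, hz, hzx⟩ := this
    rw [h.injective hzx, hA, Finset.mem_filter] at hz
    exact hz.2 hx

theorem gap_glue (Q : X → Prop) [DecidablePred Q] (b : BF {x // Q x})
    (y : ({x // ¬ Q x} → ℕ) → ({x // ¬ Q x} → ℕ) → ℂ) (B : ℕ) (c c' r r' : X → ℕ)
    (hr : ∀ x, Q x ↔ 4 ≤ r x) (hr' : ∀ x, Q x ↔ 4 ≤ r' x)
    (hc : ∀ x, Q x → c x < B) (hc' : ∀ x, Q x → c' x < B)
    (hgap : ∀ x, ¬ Q x → B ≤ c x ∨ B ≤ c' x) :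
    Fn (kform (gapKer Q b y)) (polyt c r) (polyt c' r') =
      glueFn Q (Fn b (polyt (resW Q c) (fun x => r x.1 - 4))
        (polyt (resW Q c') (fun x => r' x.1 - 4)))
      (Fn (kform y) (polyt (resW (fun x => ¬ Q x) c) (resW (fun x => ¬ Q x) r))
        (polyt (resW (fun x => ¬ Q x) c') (resW (fun x => ¬ Q x) r'))) := by
  funext h
  unfold glueFn
  by_cases H : ∀ x, Q (h x) ↔ Q x
  · rw [dif_pos H]
    exact gap_factor Q b y c c' r r' hr hr' h H
  · rw [dif_neg H]
    exact gap_zero Q b y B c c' r r' hr hr' hc hc' hgap h H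

theorem occ_glueFn (Q : X → Prop) [DecidablePred Q] (rl cl : X → ℕ) (bd : ℕ → ℕ)
    (hbd : ∀ x, ¬ Q x ↔ rl x < bd (cl x))
    (FA : Perm {x // Q x} → ℂ) (FB : Perm {x // ¬ Q x} → ℂ) :
    occ rl cl (glueFn Q FA FB) = occ (resW Q rl) (resW Q cl) FA *
      occ (resW (fun x => ¬ Q x) rl) (resW (fun x => ¬ Q x) cl) FB := by
  have key := occ_factor Q rl cl bd hbd (glueFn Q FA FB) FA FB
    (glueFn_ne_zero Q FA FB) (glueFn_subtypeCongr Q FA FB) 1 1 1 1
  have hone : (Perm.subtypeCongr (1 : Perm {x // Q x}) (1 : Perm {x // ¬ Q x})) = 1 := by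
    ext x
    by_cases hx : Q x
    · rw [Perm.subtypeCongr.left_apply _ _ hx]
      rfl
    · rw [Perm.subtypeCongr.right_apply _ _ hx]
      rfl
  rw [hone] at key
  simp only [inv_one, one_mul, mul_one] at key
  exact key

/-- `occ` of a form as a linear map in the first vector. -/
theorem occ_add_left (b : BF X) (rl cl : X → ℕ) (v v' w : WM X) :
    occ rl cl (Fn b (v + v') w) = occ rl cl (Fn b v w) + occ rl cl (Fn b v' w) := by
  simp only [occ, Fn, map_add, LinearMap.add_apply, mul_add, Finset.sum_add_distrib]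

theorem occ_smul_left (b : BF X) (rl cl : X → ℕ) (a : ℂ) (v w : WM X) :
    occ rl cl (Fn b (a • v) w) = a * occ rl cl (Fn b v w) := by
  simp only [occ, Fn, map_smul, LinearMap.smul_apply, smul_eq_mul, Finset.mul_sum]
  refine Finset.sum_congr rfl (fun ρ _ => Finset.sum_congr rfl (fun π _ => ?_))
  ring

theorem occ_add_right (b : BF X) (rl cl : X → ℕ) (v w w' : WM X) :
    occ rl cl (Fn b v (w + w')) = occ rl cl (Fn b v w) + occ rl cl (Fn b v w') := by
  simp only [occ, Fn, map_add, mul_add, Finset.sum_add_distrib]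

theorem occ_smul_right (b : BF X) (rl cl : X → ℕ) (a : ℂ) (v w : WM X) :
    occ rl cl (Fn b v (a • w)) = a * occ rl cl (Fn b v w) := by
  simp only [occ, Fn, map_smul, smul_eq_mul, Finset.mul_sum]
  refine Finset.sum_congr rfl (fun ρ _ => Finset.sum_congr rfl (fun π _ => ?_))
  ring

theorem occ_zero_left (b : BF X) (rl cl : X → ℕ) (w : WM X) :
    occ rl cl (Fn b 0 w) = 0 := by
  simp [occ, Fn]

theorem occ_zero_right (b : BF X) (rl cl : X → ℕ) (v : WM X) :
    occ rl cl (Fn b v 0) = 0 := by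
  simp [occ, Fn]

/-- Reduction to tableaux. -/
theorem exists_tab {lam mu : YoungDiagram} {rl cl : X → ℕ} (h : Occ lam mu rl cl) :
    ∃ (b : BF X) (t : X ≃ lam.cells) (t' : X ≃ mu.cells),
      occ rl cl (Fn b (polyt (fun x => (t x).1.2) (fun x => (t x).1.1))
        (polyt (fun x => (t' x).1.2) (fun x => (t' x).1.1))) ≠ 0 := by
  obtain ⟨b, v, hv, w, hw, hne⟩ := h
  by_contra hcon
  push Not at hcon
  apply hne
  have h1 : ∀ (t : X ≃ lam.cells), ∀ w ∈ Sp X mu,
      occ rl cl (Fn b (polyt (fun x => (t x).1.2) (fun x => (t x).1.1)) w) = 0 := by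
    intro t w hw
    refine Submodule.span_induction (p := fun w _ =>
      occ rl cl (Fn b (polyt (fun x => (t x).1.2) (fun x => (t x).1.1)) w) = 0)
      ?_ ?_ ?_ ?_ hw
    · rintro _ ⟨t', rfl⟩
      exact hcon b t t'
    · exact occ_zero_right b rl cl _
    · intro x y _ _ hx hy
      rw [occ_add_right, hx, hy, add_zero]
    · intro a x _ hx
      rw [occ_smul_right, hx, mul_zero]
  refine Submodule.span_induction (p := fun v _ => occ rl cl (Fn b v w) = 0)
    ?_ ?_ ?_ ?_ hv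
  · rintro _ ⟨t, rfl⟩
    exact h1 t w hw
  · exact occ_zero_left b rl cl _
  · intro x y _ _ hx hy
    rw [occ_add_left, hx, hy, add_zero]
  · intro a x _ hx
    rw [occ_smul_left, hx, mul_zero]

/-- The glued tableau. -/
theorem glued_mem {Q : X → Prop} [DecidablePred Q] {w e : ℕ} {kap lam : YoungDiagram}
    (hst : IsStack w e kap lam) (t : {x // Q x} ≃ kap.cells) {r j : {x // ¬ Q x} → ℕ}
    (htop : IsTop w e r j) :
    polyt (fun x => if h : Q x then (t ⟨x, h⟩).1.2 else j ⟨x, h⟩)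
      (fun x => if h : Q x then (t ⟨x, h⟩).1.1 + 4 else r ⟨x, h⟩) ∈ Sp X lam := by
  classical
  set R : X → ℕ := fun x => if h : Q x then (t ⟨x, h⟩).1.1 + 4 else r ⟨x, h⟩ with hR
  set C : X → ℕ := fun x => if h : Q x then (t ⟨x, h⟩).1.2 else j ⟨x, h⟩ with hC
  have R1 : ∀ x (h : Q x), R x = (t ⟨x, h⟩).1.1 + 4 := fun x h => by rw [hR]; exact dif_pos h
  have C1 : ∀ x (h : Q x), C x = (t ⟨x, h⟩).1.2 := fun x h => by rw [hC]; exact dif_pos h
  have R2 : ∀ x (h : ¬ Q x), R x = r ⟨x, h⟩ := fun x h => by rw [hR]; exact dif_neg h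
  have C2 : ∀ x (h : ¬ Q x), C x = j ⟨x, h⟩ := fun x h => by rw [hC]; exact dif_neg h
  have hr4 : ∀ x (h : ¬ Q x), r ⟨x, h⟩ < 4 := by
    intro x h
    rcases htop.mem ⟨x, h⟩ with h1 | h1
    · exact h1.1
    · omega
  have hmem : ∀ x, (R x, C x) ∈ lam.cells := by
    intro x
    rw [YoungDiagram.mem_cells, hst]
    by_cases h : Q x
    · right
      rw [R1 x h, C1 x h]
      refine ⟨by omega, ?_⟩
      rw [Nat.add_sub_cancel]
      exact (t ⟨x, h⟩).2
    · left
      rw [R2 x h, C2 x h]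
      exact htop.mem _
  have hbij : Function.Bijective (fun x : X => (⟨(R x, C x), hmem x⟩ : lam.cells)) := by
    constructor
    · intro x x' hxx
      have h1 : R x = R x' ∧ C x = C x' := by simpa using hxx
      by_cases h : Q x
      · by_cases h' : Q x'
        · rw [R1 x h, R1 x' h', C1 x h, C1 x' h'] at h1
          have h2 : t ⟨x, h⟩ = t ⟨x', h'⟩ :=
            Subtype.ext (Prod.ext (by omega) h1.2)
          exact congrArg Subtype.val (t.injective h2)
        · rw [R1 x h, R2 x' h'] at h1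
          have := hr4 x' h'
          omega
      · by_cases h' : Q x'
        · rw [R2 x h, R1 x' h'] at h1
          have := hr4 x h
          omega
        · rw [R2 x h, R2 x' h', C2 x h, C2 x' h'] at h1
          exact congrArg Subtype.val (htop.inj _ _ h1.1 h1.2)
    · rintro ⟨⟨a, c⟩, hac⟩
      have hac' : (a, c) ∈ lam := hac
      rw [hst] at hac'
      rcases hac' with h | ⟨h4, hk⟩
      · obtain ⟨y, h1, h2⟩ := htop.surj a c h
        refine ⟨y.1, Subtype.ext (Prod.ext ?_ ?_)⟩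
        · change R y.1 = a
          rw [R2 y.1 y.2]
          exact h1
        · change C y.1 = c
          rw [C2 y.1 y.2]
          exact h2
      · refine ⟨(t.symm ⟨(a - 4, c), hk⟩).1, Subtype.ext (Prod.ext ?_ ?_)⟩
        · change R (t.symm ⟨(a - 4, c), hk⟩).1 = a
          rw [R1 _ (t.symm ⟨(a - 4, c), hk⟩).2]
          rw [Subtype.coe_eta, Equiv.apply_symm_apply]
          change a - 4 + 4 = a
          omega
        · change C (t.symm ⟨(a - 4, c), hk⟩).1 = c
          rw [C1 _ (t.symm ⟨(a - 4, c), hk⟩).2]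
          rw [Subtype.coe_eta, Equiv.apply_symm_apply]
  exact Submodule.subset_span ⟨Equiv.ofBijective _ hbij, rfl⟩

/-- **(GAP) the gap lemma.** -/
theorem pGap : PGap := by
  intro X _ _ Q _ w e kap lam hst rl cl bd hbd htd hocc
  classical
  obtain ⟨r, j, r', i, ht, ht', hgap, y, hy⟩ := htd
  obtain ⟨b, t, t', hb⟩ := exists_tab hocc
  set R : X → ℕ := fun x => if h : Q x then (t ⟨x, h⟩).1.1 + 4 else r ⟨x, h⟩ with hR
  set C : X → ℕ := fun x => if h : Q x then (t ⟨x, h⟩).1.2 else j ⟨x, h⟩ with hC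
  set R' : X → ℕ := fun x => if h : Q x then (t' ⟨x, h⟩).1.1 + 4 else r' ⟨x, h⟩ with hR'
  set C' : X → ℕ := fun x => if h : Q x then (t' ⟨x, h⟩).1.2 else i ⟨x, h⟩ with hC'
  have R1 : ∀ x (h : Q x), R x = (t ⟨x, h⟩).1.1 + 4 := fun x h => by rw [hR]; exact dif_pos h
  have C1 : ∀ x (h : Q x), C x = (t ⟨x, h⟩).1.2 := fun x h => by rw [hC]; exact dif_pos h
  have R2 : ∀ x (h : ¬ Q x), R x = r ⟨x, h⟩ := fun x h => by rw [hR]; exact dif_neg h
  have C2 : ∀ x (h : ¬ Q x), C x = j ⟨x, h⟩ := fun x h => by rw [hC]; exact dif_neg h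
  have R1' : ∀ x (h : Q x), R' x = (t' ⟨x, h⟩).1.1 + 4 := fun x h => by
    rw [hR']; exact dif_pos h
  have C1' : ∀ x (h : Q x), C' x = (t' ⟨x, h⟩).1.2 := fun x h => by rw [hC']; exact dif_pos h
  have R2' : ∀ x (h : ¬ Q x), R' x = r' ⟨x, h⟩ := fun x h => by rw [hR']; exact dif_neg h
  have C2' : ∀ x (h : ¬ Q x), C' x = i ⟨x, h⟩ := fun x h => by rw [hC']; exact dif_neg h
  have hr4 : ∀ (r j : {x // ¬ Q x} → ℕ), IsTop w e r j → ∀ x (h : ¬ Q x), r ⟨x, h⟩ < 4 := by
    intro r j htop x h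
    rcases htop.mem ⟨x, h⟩ with h1 | h1
    · exact h1.1
    · omega
  have hRQ : ∀ x, Q x ↔ 4 ≤ R x := by
    intro x
    by_cases h : Q x
    · rw [R1 x h]
      exact ⟨fun _ => by omega, fun _ => h⟩
    · rw [R2 x h]
      have := hr4 r j ht x h
      exact ⟨fun h' => absurd h' h, fun h' => by omega⟩
  have hRQ' : ∀ x, Q x ↔ 4 ≤ R' x := by
    intro x
    by_cases h : Q x
    · rw [R1' x h]
      exact ⟨fun _ => by omega, fun _ => h⟩
    · rw [R2' x h]
      have := hr4 r' i ht' x h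
      exact ⟨fun h' => absurd h' h, fun h' => by omega⟩
  have hcol : ∀ c : kap.cells, c.1.2 < kap.rowLen 0 := by
    intro c
    have h1 : c.1.2 < kap.rowLen c.1.1 := by
      apply YoungDiagram.mem_iff_lt_rowLen.mp
      exact c.2
    exact lt_of_lt_of_le h1 (kap.rowLen_anti 0 c.1.1 (Nat.zero_le _))
  have hC1 : ∀ x, Q x → C x < kap.rowLen 0 := by
    intro x h
    rw [C1 x h]
    exact hcol _
  have hC1' : ∀ x, Q x → C' x < kap.rowLen 0 := by
    intro x h
    rw [C1' x h]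
    exact hcol _
  have hg : ∀ x, ¬ Q x → kap.rowLen 0 ≤ C x ∨ kap.rowLen 0 ≤ C' x := by
    intro x h
    rw [C2 x h, C2' x h]
    exact hgap ⟨x, h⟩
  refine ⟨kform (gapKer Q b y), polyt C R, glued_mem hst t ht, polyt C' R',
    glued_mem hst t' ht', ?_⟩
  rw [gap_glue Q b y (kap.rowLen 0) C C' R R' hRQ hRQ' hC1 hC1' hg, occ_glueFn Q rl cl bd hbd]
  have e1 : resW Q C = fun x => (t x).1.2 := by
    funext x
    exact C1 x.1 x.2
  have e2 : (fun x : {x // Q x} => R x.1 - 4) = fun x => (t x).1.1 := by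
    funext x
    rw [R1 x.1 x.2, Nat.add_sub_cancel]
  have e1' : resW Q C' = fun x => (t' x).1.2 := by
    funext x
    exact C1' x.1 x.2
  have e2' : (fun x : {x // Q x} => R' x.1 - 4) = fun x => (t' x).1.1 := by
    funext x
    rw [R1' x.1 x.2, Nat.add_sub_cancel]
  have e3 : resW (fun x => ¬ Q x) C = j := by
    funext x
    exact C2 x.1 x.2
  have e4 : resW (fun x => ¬ Q x) R = r := by
    funext x
    exact R2 x.1 x.2
  have e3' : resW (fun x => ¬ Q x) C' = i := by
    funext x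
    exact C2' x.1 x.2
  have e4' : resW (fun x => ¬ Q x) R' = r' := by
    funext x
    exact R2' x.1 x.2
  rw [e1, e2, e1', e2', e3, e4, e3', e4']
  exact mul_ne_zero hb hy

end

end Vale.Agent.P197.TS.G528
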