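import Vale.Agent.P197.TS.GSpec

/-!
# Tensor squares: the self-conjugate diagram `lam` and its two lower parts (P197, question Q2)
-/

namespace Vale.Agent.P197.TS

open Equiv Finset

/-- a Young diagram from a bounded decreasing predicate -/
theorem exists_yd (P : ℕ → ℕ → Prop) (M : ℕ) (hM : ∀ a c, P a c → a < M ∧ c < M)
    (hmono : ∀ a c a' c', P a c → a' ≤ a → c' ≤ c → P a' c') :
    ∃ Y : YoungDiagram, ∀ a c, (a, c) ∈ Y ↔ P a c := by
  classical
  refine ⟨⟨((range M) ×ˢ (range M)).filter (fun p => P p.1 p.2), ?_⟩, ?_⟩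
  · intro p q hqp hp
    simp only [coe_filter, mem_product, mem_range, Set.mem_ofPred_eq] at hp ⊢
    have h1 : P q.1 q.2 := hmono _ _ _ _ hp.2 hqp.1 hqp.2
    exact ⟨hM _ _ h1, h1⟩
  · intro a c
    rw [← YoungDiagram.mem_cells]
    simp only [mem_filter, mem_product, mem_range]
    exact ⟨fun h => h.2, fun h => ⟨hM _ _ h, h⟩⟩

/-- the lower part of the lower part -/
def PB' (w e k : ℕ) (a c : ℕ) : Prop :=
  topCell (w - 1) e a c ∨ (4 ≤ a ∧ (a - 4) + c < k)

/-- the whole diagram, symmetric form -/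
def PL (w e k : ℕ) (a c : ℕ) : Prop :=
  (a < 4 ∧ c < 4 * w) ∨ (a = 0 ∧ c < 4 * w + e) ∨ (c < 4 ∧ a < 4 * w) ∨
    (c = 0 ∧ a < 4 * w + e) ∨ (4 ≤ a ∧ 4 ≤ c ∧ (a - 4) + (c - 4) < k)

theorem PL_symm (w e k a c : ℕ) : PL w e k a c ↔ PL w e k c a := by
  unfold PL
  constructor <;> (intro h; omega)

theorem PL_iff {w e k : ℕ} (hk : 2 * k + 11 ≤ 4 * w) (a c : ℕ) :
    PL w e k a c ↔ (topCell w e a c ∨ (4 ≤ a ∧ PB' w e k c (a - 4))) := by
  unfold PL PB' topCell
  constructor <;> (intro h; omega)

/-- the shift by `(4, 4)` -/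
def sh4 : ℕ × ℕ ↪ ℕ × ℕ := ⟨fun p => (p.1 + 4, p.2 + 4), fun p q h => by
  simp only [Prod.mk.injEq] at h
  ext <;> omega⟩

theorem mem_sh4 {S : Finset (ℕ × ℕ)} {a c : ℕ} :
    (a, c) ∈ S.map sh4 ↔ 4 ≤ a ∧ 4 ≤ c ∧ (a - 4, c - 4) ∈ S := by
  rw [mem_map]
  constructor
  · rintro ⟨⟨x, y⟩, h1, h2⟩
    have h3 : (x + 4, y + 4) = (a, c) := h2
    rw [Prod.mk.injEq] at h3
    obtain ⟨rfl, rfl⟩ := h3
    exact ⟨by omega, by omega, by simpa using h1⟩
  · rintro ⟨h1, h2, h3⟩
    refine ⟨(a - 4, c - 4), h3, ?_⟩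
    change (a - 4 + 4, c - 4 + 4) = (a, c)
    rw [Nat.sub_add_cancel h1, Nat.sub_add_cancel h2]

theorem pGeo : PGeo := by
  intro w e k hk
  obtain ⟨B', hB'⟩ := exists_yd (PB' w e k) (4 * w + e + k + 8)
    (by unfold PB' topCell; intro a c h; omega)
    (by unfold PB' topCell; intro a c a' c' h h1 h2; omega)
  obtain ⟨lam, hlam⟩ := exists_yd (PL w e k) (4 * w + e + k + 8)
    (by unfold PL; intro a c h; omega)
    (by unfold PL; intro a c a' c' h h1 h2; omega)
  have hB : ∀ a c, (a, c) ∈ B'.transpose ↔ PB' w e k c a := by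
    intro a c
    rw [YoungDiagram.mem_transpose]
    exact hB' c a
  have hs : ∀ a c, (a, c) ∈ staircase k ↔ a + c < k := fun a c => mem_staircase
  refine ⟨lam, B'.transpose, B', ?_, ?_, ?_, ?_, ?_, ?_, ?_⟩
  · ext ⟨a, c⟩
    rw [YoungDiagram.mem_cells, YoungDiagram.mem_cells, YoungDiagram.mem_transpose]
    change (c, a) ∈ lam ↔ (a, c) ∈ lam
    rw [hlam, hlam]
    exact PL_symm _ _ _ _ _
  · -- the cardinality
    have h1 : lam.cells = ((range 4 ×ˢ range (4 * w)) ∪
        (({0} : Finset ℕ) ×ˢ (range (4 * w + e) \ range (4 * w)))) ∪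
        ((((range (4 * w) \ range 4) ×ˢ range 4)) ∪
        ((range (4 * w + e) \ range (4 * w)) ×ˢ ({0} : Finset ℕ))) ∪
        (staircase k).cells.map sh4 := by
      ext ⟨a, c⟩
      rw [YoungDiagram.mem_cells, hlam, mem_union, mem_sh4]
      simp only [mem_union, mem_product, mem_range, mem_singleton, mem_sdiff,
        YoungDiagram.mem_cells, hs]
      unfold PL
      constructor <;> (intro h; omega)
    rw [YoungDiagram.card, h1, card_union_of_disjoint, card_union_of_disjoint,
      card_union_of_disjoint, card_union_of_disjoint, card_map]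
    · have h2 : (staircase k).cells.card = k * (k + 1) / 2 := card_staircase k
      rw [h2]
      simp only [card_product, card_range, card_singleton]
      rw [card_sdiff_of_subset (range_subset_range.2 (by omega)),
        card_sdiff_of_subset (range_subset_range.2 (by omega))]
      simp only [card_range]
      omega
    all_goals
      rw [disjoint_left]
      rintro ⟨a, c⟩
      simp only [mem_union, mem_product, mem_range, mem_singleton, mem_sdiff, mem_sh4,
        YoungDiagram.mem_cells, hs]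
      intro h
      omega
  · intro a c
    rw [hlam, hB]
    exact PL_iff hk a c
  · rfl
  · intro a c
    rw [hB', hs]
    rfl
  · rw [YoungDiagram.rowLen_transpose]
    refine le_antisymm ?_ ?_
    · by_contra hc
      push Not at hc
      have h1 := YoungDiagram.mem_iff_lt_colLen.2 hc
      rw [hB'] at h1
      unfold PB' topCell at h1
      omega
    · by_contra hc
      push Not at hc
      have h1 : (k + 3, 0) ∉ B' := fun h => by
        have := YoungDiagram.mem_iff_lt_colLen.1 h
        omega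
      apply h1
      rw [hB']
      unfold PB' topCell
      omega
  · refine le_antisymm ?_ ?_
    · by_contra hc
      push Not at hc
      have h1 := YoungDiagram.mem_iff_lt_rowLen.2 hc
      rw [hs] at h1
      omega
    · by_contra hc
      push Not at hc
      have h1 : (0, k - 1) ∉ staircase k := fun h => by
        have := YoungDiagram.mem_iff_lt_rowLen.1 h
        omega
      apply h1
      rw [hs]
      omega

end Vale.Agent.P197.TS
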