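import Vale.Agent.P197.TS.Spec
set_option autoImplicit false

/-!
# Irreducibility of the Specht modules on an arbitrary finite type (P197, question Q2, block IR)
-/

namespace Vale.Agent.P197.TS

open Equiv Finset

noncomputable section

namespace Irr

variable {X : Type} [Fintype X] [DecidableEq X]

/-- the signed column sum operator -/
def Cm (c : X → ℕ) : WM X →ₗ[ℂ] WM X :=
  ∑ σ ∈ stab c, ((Perm.sign σ : ℤ) : ℂ) • (wordRep X σ : WM X →ₗ[ℂ] WM X)

theorem Cm_apply (c : X → ℕ) (v : WM X) :
    Cm c v = ∑ σ ∈ stab c, ((Perm.sign σ : ℤ) : ℂ) • wordRep X σ v := by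
  simp [Cm, LinearMap.sum_apply]

/-- the coefficient of a vector along a polytabloid -/
def ev (c r : X → ℕ) : WM X →ₗ[ℂ] ℂ :=
  ∑ σ ∈ stab c, ((Perm.sign σ : ℤ) : ℂ) • Finsupp.lapply (r ∘ ⇑(σ⁻¹ : Perm X))

theorem ev_apply (c r : X → ℕ) (v : WM X) :
    ev c r v = ∑ σ ∈ stab c, ((Perm.sign σ : ℤ) : ℂ) * v (r ∘ ⇑(σ⁻¹ : Perm X)) := by
  simp [ev, LinearMap.sum_apply]

/-- a word of the right content, injective on the columns, has small letters -/
theorem lt_of_inj {mu : YoungDiagram} (t : X ≃ mu.cells) (g : Perm X) (f : X → ℕ)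
    (hf : f = (fun x => (t x).1.1) ∘ ⇑g)
    (hinj : ∀ x y, (t x).1.2 = (t y).1.2 → f x = f y → x = y) (x0 : X) :
    f x0 < mu.colLen (t x0).1.2 := by
  classical
  set L := mu.colLen (t x0).1.2 with hL
  set r : X → ℕ := fun x => (t x).1.1 with hr
  set c : X → ℕ := fun x => (t x).1.2 with hc
  have hmem : ∀ x, (r x, c x) ∈ mu := fun x => (YoungDiagram.mem_cells _).1 (t x).2
  -- total counts
  have htot : (univ.filter fun x => f x < L).card = (univ.filter fun x => r x < L).card := by
    refine Finset.card_bij (fun x _ => g x) ?_ ?_ ?_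
    · intro x hx
      simpa [hf] using hx
    · intro x _ y _ h
      exact g.injective h
    · intro y hy
      refine ⟨g⁻¹ y, ?_, ?_⟩
      · simpa [hf] using hy
      · simp
  set J : Finset ℕ := univ.image c with hJ
  have hfib : ∀ h : X → ℕ, (univ.filter fun x => h x < L).card =
      ∑ j ∈ J, ((univ.filter fun x => h x < L).filter fun x => c x = j).card := by
    intro h
    exact Finset.card_eq_sum_card_fiberwise (fun x _ => mem_image_of_mem _ (mem_univ x))
  have hle : ∀ j ∈ J, ((univ.filter fun x => f x < L).filter fun x => c x = j).card ≤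
      ((univ.filter fun x => r x < L).filter fun x => c x = j).card := by
    intro j _
    by_cases hj : L ≤ mu.colLen j
    · have h1 : ((univ.filter fun x => f x < L).filter fun x => c x = j).card ≤ L := by
        have h2 : ((univ.filter fun x => f x < L).filter fun x => c x = j).card ≤
            (range L).card := by
          refine Finset.card_le_card_of_injOn f ?_ ?_
          · intro x hx
            simp only [coe_filter, mem_filter, mem_univ, true_and, Set.mem_ofPred_eq] at hx
            simpa using hx.1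
          · intro x hx y hy hxy
            simp only [coe_filter, mem_filter, mem_univ, true_and, Set.mem_ofPred_eq] at hx hy
            exact hinj x y (hx.2.trans hy.2.symm) hxy
        simpa using h2
      have h3 : range L ⊆ ((univ.filter fun x => r x < L).filter fun x => c x = j).image r := by
        intro i hi
        rw [mem_range] at hi
        have h4 : (i, j) ∈ mu.cells := by
          rw [YoungDiagram.mem_cells, YoungDiagram.mem_iff_lt_colLen]
          omega
        rw [mem_image]
        refine ⟨t.symm ⟨(i, j), h4⟩, ?_, ?_⟩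
        · simp [hr, hc, hi]
        · simp [hr]
      have h5 := (Finset.card_le_card h3).trans Finset.card_image_le
      rw [card_range] at h5
      exact h1.trans h5
    · refine Finset.card_le_card ?_
      intro x hx
      simp only [mem_filter, mem_univ, true_and] at hx ⊢
      refine ⟨?_, hx.2⟩
      have h6 := (YoungDiagram.mem_iff_lt_colLen).1 (hmem x)
      rw [hx.2] at h6
      omega
  have hsum : ∑ j ∈ J, ((univ.filter fun x => f x < L).filter fun x => c x = j).card =
      ∑ j ∈ J, ((univ.filter fun x => r x < L).filter fun x => c x = j).card := by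
    rw [← hfib f, ← hfib r, htot]
  have heq := (Finset.sum_eq_sum_iff_of_le hle).1 hsum (c x0) (mem_image_of_mem _ (mem_univ x0))
  have hall : ((univ.filter fun x => r x < L).filter fun x => c x = c x0) =
      univ.filter fun x => c x = c x0 := by
    ext x
    simp only [mem_filter, mem_univ, true_and, and_iff_right_iff_imp]
    intro hx
    have h6 := (YoungDiagram.mem_iff_lt_colLen).1 (hmem x)
    rw [hx] at h6
    exact h6
  rw [hall] at heq
  have hsub : ((univ.filter fun x => f x < L).filter fun x => c x = c x0) ⊆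
      univ.filter fun x => c x = c x0 := by
    intro x hx
    simp only [mem_filter, mem_univ, true_and] at hx ⊢
    exact hx.2
  have hEq := Finset.eq_of_subset_of_card_le hsub heq.ge
  have hx0 : x0 ∈ univ.filter fun x => c x = c x0 := by simp
  rw [← hEq] at hx0
  simp only [mem_filter, mem_univ, true_and] at hx0
  exact hx0.1

/-- such a word is a column permutation of the row word -/
theorem exists_col {mu : YoungDiagram} (t : X ≃ mu.cells) (g : Perm X) (f : X → ℕ)
    (hf : f = (fun x => (t x).1.1) ∘ ⇑g)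
    (hinj : ∀ x y, (t x).1.2 = (t y).1.2 → f x = f y → x = y) :
    ∃ σ ∈ stab (fun x => (t x).1.2), f = (fun x => (t x).1.1) ∘ ⇑(σ⁻¹ : Perm X) := by
  classical
  have hlt := lt_of_inj t g f hf hinj
  have hmem : ∀ x, (f x, (t x).1.2) ∈ mu.cells := fun x => by
    rw [YoungDiagram.mem_cells, YoungDiagram.mem_iff_lt_colLen]
    exact hlt x
  let τ0 : X → X := fun x => t.symm ⟨(f x, (t x).1.2), hmem x⟩
  have h1 : ∀ x, (t (τ0 x)).1 = (f x, (t x).1.2) := fun x => by simp [τ0]
  have hτinj : Function.Injective τ0 := by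
    intro x y hxy
    have h2 := h1 x
    rw [hxy, h1 y] at h2
    rw [Prod.mk.injEq] at h2
    exact hinj x y h2.2.symm h2.1.symm
  let τ : Perm X := Equiv.ofBijective τ0 (Finite.injective_iff_bijective.1 hτinj)
  have hτ : ∀ x, τ x = τ0 x := fun x => rfl
  refine ⟨τ⁻¹, Conj.inv_mem_stab ?_, ?_⟩
  · rw [mem_stab]
    intro x
    rw [hτ, h1 x]
  · funext x
    rw [inv_inv]
    simp only [Function.comp_apply]
    rw [hτ, h1 x]

theorem Cm_single {mu : YoungDiagram} (t : X ≃ mu.cells) (g : Perm X) :
    Cm (fun x => (t x).1.2) (Finsupp.single ((fun x => (t x).1.1) ∘ ⇑g) (1 : ℂ)) =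
      ev (fun x => (t x).1.2) (fun x => (t x).1.1)
        (Finsupp.single ((fun x => (t x).1.1) ∘ ⇑g) (1 : ℂ)) •
        polyt (fun x => (t x).1.2) (fun x => (t x).1.1) := by
  classical
  set c : X → ℕ := fun x => (t x).1.2 with hc
  set r : X → ℕ := fun x => (t x).1.1 with hr
  have hrc : ∀ x y, r x = r y → c x = c y → x = y := by
    intro x y h1 h2
    apply t.injective
    apply Subtype.ext
    exact Prod.ext h1 h2
  rw [Cm_apply, ev_apply]
  by_cases hex : ∃ σ ∈ stab c, r ∘ ⇑g = r ∘ ⇑(σ⁻¹ : Perm X)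
  · obtain ⟨σ, hσ, he⟩ := hex
    have hev : ∑ τ ∈ stab c, ((Perm.sign τ : ℤ) : ℂ) *
        (Finsupp.single (r ∘ ⇑g) (1 : ℂ)) (r ∘ ⇑(τ⁻¹ : Perm X)) = ((Perm.sign σ : ℤ) : ℂ) := by
      rw [Finset.sum_eq_single_of_mem σ hσ]
      · rw [he, Finsupp.single_eq_same, mul_one]
      · intro τ hτ hne
        rw [Finsupp.single_apply, if_neg, mul_zero]
        intro h
        apply hne
        rw [he] at h
        have h2 : τ⁻¹ = σ⁻¹ := by
          ext x
          refine hrc _ _ (congrFun h x).symm ?_
          rw [mem_stab.1 (Conj.inv_mem_stab hτ) x, mem_stab.1 (Conj.inv_mem_stab hσ) x]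
        exact inv_injective h2
    rw [hev, he]
    unfold polyt
    rw [Finset.smul_sum]
    refine Finset.sum_bij' (fun τ _ => τ * σ) (fun τ _ => τ * σ⁻¹) ?_ ?_ ?_ ?_ ?_
    · intro τ hτ
      exact Conj.mul_mem_stab hτ hσ
    · intro τ hτ
      exact Conj.mul_mem_stab hτ (Conj.inv_mem_stab hσ)
    · intro τ _
      group
    · intro τ _
      group
    · intro τ _
      rw [wordRep_single, smul_smul, Conj.sgn_mul]
      have h1 : ((Perm.sign σ : ℤ) : ℂ) * (((Perm.sign τ : ℤ) : ℂ) * ((Perm.sign σ : ℤ) : ℂ)) =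
          ((Perm.sign τ : ℤ) : ℂ) := by
        rw [mul_comm, mul_assoc, Conj.sgn_sq, mul_one]
      rw [h1]
      congr 2
  · have hev : ∑ τ ∈ stab c, ((Perm.sign τ : ℤ) : ℂ) *
        (Finsupp.single (r ∘ ⇑g) (1 : ℂ)) (r ∘ ⇑(τ⁻¹ : Perm X)) = 0 := by
      refine Finset.sum_eq_zero fun τ hτ => ?_
      rw [Finsupp.single_apply, if_neg, mul_zero]
      intro h
      exact hex ⟨τ, hτ, h⟩
    rw [hev, zero_smul]
    have hnot : ¬ ∀ x y, c x = c y → (r ∘ ⇑g) x = (r ∘ ⇑g) y → x = y := by
      intro h
      obtain ⟨σ, hσ, he⟩ := exists_col t g (r ∘ ⇑g) rfl h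
      exact hex ⟨σ, hσ, he⟩
    push Not at hnot
    obtain ⟨x, y, h1, h2, h3⟩ := hnot
    have := Conj.sum_stab_eq_zero c (r ∘ ⇑g) x y h3 h1 h2
    rw [← this]
    refine Finset.sum_congr rfl fun τ _ => ?_
    rw [wordRep_single]

/-- `C_t⁻ v = ⟨e_t, v⟩ e_t` on the Specht module -/
theorem Cm_mem {mu : YoungDiagram} (t : X ≃ mu.cells) (v : WM X) (hv : v ∈ Sp X mu) :
    Cm (fun x => (t x).1.2) v = ev (fun x => (t x).1.2) (fun x => (t x).1.1) v •
      polyt (fun x => (t x).1.2) (fun x => (t x).1.1) := by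
  unfold Sp at hv
  induction hv using Submodule.span_induction with
  | mem v h =>
    obtain ⟨t', rfl⟩ := h
    have hword : ∀ π : Perm X, ∃ g : Perm X,
        (fun x => (t' x).1.1) ∘ ⇑(π⁻¹ : Perm X) = (fun x => (t x).1.1) ∘ ⇑g := by
      intro π
      refine ⟨(t'.trans t.symm) * π⁻¹, ?_⟩
      funext x
      simp
    unfold polyt
    rw [map_sum, map_sum, Finset.sum_smul]
    refine Finset.sum_congr rfl fun π _ => ?_
    rw [map_smul, map_smul]
    obtain ⟨g, hg⟩ := hword π
    rw [hg, Cm_single t g, smul_eq_mul, mul_smul]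
    rfl
  | zero => simp
  | add v w _ _ h1 h2 => rw [map_add, map_add, h1, h2, add_smul]
  | smul a v _ h => rw [map_smul, map_smul, h, smul_eq_mul, mul_smul]

/-- the hermitian form -/
def hf (w v : WM X) : ℂ := w.sum fun u a => star a * v u

theorem hf_eq (w v : WM X) (s : Finset (X → ℕ)) (hs : w.support ⊆ s) :
    hf w v = ∑ u ∈ s, star (w u) * v u := by
  unfold hf
  rw [Finsupp.sum_of_support_subset _ hs _ (fun u _ => by simp)]

theorem hf_add (w w' v : WM X) : hf (w + w') v = hf w v + hf w' v := by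
  classical
  rw [hf_eq (w + w') v (w.support ∪ w'.support) Finsupp.support_add,
    hf_eq w v (w.support ∪ w'.support) subset_union_left,
    hf_eq w' v (w.support ∪ w'.support) subset_union_right, ← Finset.sum_add_distrib]
  refine Finset.sum_congr rfl fun u _ => ?_
  rw [Finsupp.add_apply, star_add, add_mul]

theorem hf_smul (a : ℂ) (w v : WM X) : hf (a • w) v = star a * hf w v := by
  rw [hf_eq (a • w) v w.support Finsupp.support_smul, hf_eq w v w.support subset_rfl,
    Finset.mul_sum]
  refine Finset.sum_congr rfl fun u _ => ?_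
  rw [Finsupp.smul_apply, smul_eq_mul, star_mul']
  ring

theorem hf_zero (v : WM X) : hf 0 v = 0 := by simp [hf]

theorem hf_single (u : X → ℕ) (v : WM X) : hf (Finsupp.single u (1 : ℂ)) v = v u := by
  simp [hf]

theorem hf_sum {ι : Type} (s : Finset ι) (w : ι → WM X) (v : WM X) :
    hf (∑ i ∈ s, w i) v = ∑ i ∈ s, hf (w i) v := by
  classical
  induction s using Finset.induction_on with
  | empty => simp [hf_zero]
  | insert i s hi ih => rw [Finset.sum_insert hi, Finset.sum_insert hi, hf_add, ih]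

theorem hf_polyt (c r : X → ℕ) (v : WM X) : hf (polyt c r) v = ev c r v := by
  rw [ev_apply]
  unfold polyt
  rw [hf_sum]
  refine Finset.sum_congr rfl fun σ _ => ?_
  rw [hf_smul, hf_single]
  congr 1
  rw [← starRingEnd_apply, map_intCast]

theorem eq_zero_of_hf (v : WM X) (h : hf v v = 0) : v = 0 := by
  rw [hf_eq v v v.support subset_rfl] at h
  have h1 : ∀ u, star (v u) * v u = ((‖v u‖ ^ 2 : ℝ) : ℂ) := by
    intro u
    rw [← starRingEnd_apply, mul_comm, Complex.mul_conj, Complex.normSq_eq_norm_sq]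
  simp_rw [h1] at h
  rw [← Complex.ofReal_sum, Complex.ofReal_eq_zero,
    Finset.sum_eq_zero_iff_of_nonneg (fun u _ => by positivity)] at h
  by_contra hne
  obtain ⟨u, hu⟩ := Finsupp.support_nonempty_iff.2 hne
  have h2 := h u hu
  have h3 : ‖v u‖ = 0 := by simpa using h2
  exact (Finsupp.mem_support_iff.1 hu) (norm_eq_zero.1 h3)

theorem hf_mem {mu : YoungDiagram} (v : WM X)
    (h : ∀ t : X ≃ mu.cells, ev (fun x => (t x).1.2) (fun x => (t x).1.1) v = 0) (w : WM X)
    (hw : w ∈ Sp X mu) : hf w v = 0 := by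
  unfold Sp at hw
  induction hw using Submodule.span_induction with
  | mem w h' =>
    obtain ⟨t, rfl⟩ := h'
    rw [hf_polyt, h t]
  | zero => exact hf_zero v
  | add w w' _ _ h1 h2 => rw [hf_add, h1, h2, add_zero]
  | smul a w _ h' => rw [hf_smul, h', mul_zero]

end Irr

open Irr in
/-- (IR) irreducibility of the Specht modules -/
theorem pIrr : PIrr := by
  classical
  intro X _ _ mu V hV hst hne
  refine le_antisymm hV ?_
  obtain ⟨v, hv, hv0⟩ := (Submodule.ne_bot_iff V).1 hne
  have h1 : ∃ t : X ≃ mu.cells, ev (fun x => (t x).1.2) (fun x => (t x).1.1) v ≠ 0 := by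
    by_contra h
    push Not at h
    exact hv0 (eq_zero_of_hf v (hf_mem v h v (hV hv)))
  obtain ⟨t, ht⟩ := h1
  have h2 : polyt (fun x => (t x).1.2) (fun x => (t x).1.1) ∈ V := by
    have h3 : Cm (fun x => (t x).1.2) v ∈ V := by
      rw [Cm_apply]
      exact V.sum_mem fun σ _ => V.smul_mem _ (hst σ v hv)
    rw [Cm_mem t v (hV hv)] at h3
    have h4 := V.smul_mem (ev (fun x => (t x).1.2) (fun x => (t x).1.1) v)⁻¹ h3
    rwa [smul_smul, inv_mul_cancel₀ ht, one_smul] at h4
  unfold Sp
  rw [Submodule.span_le]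
  rintro w ⟨t', rfl⟩
  have h5 := hst (t.trans t'.symm) _ h2
  rw [wordRep_polyt] at h5
  have h6 : (fun x => (t x).1.2) ∘ ⇑((t.trans t'.symm)⁻¹ : Perm X) = fun x => (t' x).1.2 := by
    funext x
    have h7 : (t.trans t'.symm)⁻¹ x = t.symm (t' x) := rfl
    simp
  have h8 : (fun x => (t x).1.1) ∘ ⇑((t.trans t'.symm)⁻¹ : Perm X) = fun x => (t' x).1.1 := by
    funext x
    have h7 : (t.trans t'.symm)⁻¹ x = t.symm (t' x) := rfl
    simp
  rw [h6, h8] at h5
  exact h5

end

end Vale.Agent.P197.TS
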