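import Vale.Agent.P197.TS.Spec

/-!
# Tensor squares: from `Occ` to Kronecker coefficients (P197, question Q2)
-/

namespace Vale.Agent.P197.TS

open Equiv Finset
open scoped TensorProduct

noncomputable section

/-- `Occ` gives a vector of the tensor product not killed by `R⁺ C⁻`. -/
theorem occ_ne {n : ℕ} {lam mu : YoungDiagram} {rl cl : Fin n → ℕ} (h : Occ lam mu rl cl) :
    ∃ u : spechtSub n lam ⊗[ℂ] spechtSub n mu,
      ∑ g ∈ stab rl, ((specht n lam).tprod (specht n mu)) g
      (∑ π ∈ stab cl, ((Perm.sign π : ℤ) : ℂ) •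
        ((specht n lam).tprod (specht n mu)) π u) ≠ 0 := by
  obtain ⟨b, v, hv, w, hw, hne⟩ := h
  let v0 : spechtSub n lam := ⟨v, hv⟩
  let w0 : spechtSub n mu := ⟨w, hw⟩
  refine ⟨v0 ⊗ₜ[ℂ] w0, fun hzero => hne ?_⟩
  have h2 := congrArg (tensorForm lam mu b) hzero
  rw [map_zero] at h2
  rw [← h2, map_sum]
  unfold occ
  refine Finset.sum_congr rfl (fun ρ _ => ?_)
  rw [map_sum, map_sum]
  refine Finset.sum_congr rfl (fun π _ => ?_)
  rw [map_smul, map_smul, smul_eq_mul]
  congr 1
  unfold Fn
  rw [Representation.tprod_apply, Representation.tprod_apply, TensorProduct.map_tmul,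
    TensorProduct.map_tmul, tensorForm_tmul]
  have e : ∀ (lam : YoungDiagram) (v : spechtSub n lam),
      ((specht n lam ρ (specht n lam π v)).1) = wordRep (Fin n) (ρ * π) v.1 := by
    intro lam v
    rw [map_mul]
    rfl
  rw [e, e]

theorem pkron : PKron := by
  intro n lam mu nu t h
  obtain ⟨u, hu⟩ := occ_ne h
  exact kron_pos_of_ne_zero n lam mu nu t u hu

set_option maxSynthPendingDepth 3 in
theorem pkronT (hTw : PTw) : PKronT := by
  intro n lam nu hlam t h
  classical
  obtain ⟨u, hu⟩ := occ_ne h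
  obtain ⟨θ, hθ1, hθ2, hθ3⟩ := hTw (Fin n) lam
  have hm : ∀ v ∈ spechtSub n lam, θ v ∈ spechtSub n lam := fun v hv => by
    have := hθ2 v hv
    rw [hlam] at this
    exact this
  let θ' : spechtSub n lam →ₗ[ℂ] spechtSub n lam := θ.restrict hm
  have hinj : Function.Injective θ' := by
    rw [← LinearMap.ker_eq_bot, LinearMap.ker_eq_bot']
    intro v hv
    have h1 : θ v.1 = 0 := congrArg Subtype.val hv
    exact Subtype.ext (hθ3 v.1 v.2 h1)
  have hθ' : ∀ (g : Perm (Fin n)) (v : spechtSub n lam),
      θ' (specht n lam g v) = ((Perm.sign g : ℤ) : ℂ) • specht n lam g (θ' v) := by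
    intro g v
    apply Subtype.ext
    exact hθ1 g v.1
  let Θ := LinearMap.rTensor (spechtSub n lam) θ'
  have hΘinj : Function.Injective Θ :=
    Module.Flat.rTensor_preserves_injective_linearMap θ' hinj
  have hΘ : ∀ (g : Perm (Fin n)) (z : spechtSub n lam ⊗[ℂ] spechtSub n lam),
      Θ (((specht n lam).tprod (specht n lam)) g z) =
        ((Perm.sign g : ℤ) : ℂ) • ((specht n lam).tprod (specht n lam)) g (Θ z) := by
    intro g z
    induction z using TensorProduct.induction_on with
    | zero => simp only [map_zero, smul_zero]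
    | add a b ha hb => simp only [map_add, ha, hb, smul_add]
    | tmul a b =>
      rw [Representation.tprod_apply, TensorProduct.map_tmul]
      change (θ' (specht n lam g a)) ⊗ₜ[ℂ] (specht n lam g b) =
        ((Perm.sign g : ℤ) : ℂ) • (TensorProduct.map (specht n lam g) (specht n lam g))
          ((θ' a) ⊗ₜ[ℂ] b)
      rw [hθ', TensorProduct.map_tmul, TensorProduct.smul_tmul']
  have hbij : Function.Bijective (fun x : Fin n =>
      (⟨((t x).1.2, (t x).1.1), by
        rw [YoungDiagram.mem_cells, YoungDiagram.mem_transpose]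
        exact (t x).2⟩ : nu.transpose.cells)) := by
    constructor
    · intro x y hxy
      have h1 : (t x).1.2 = (t y).1.2 ∧ (t x).1.1 = (t y).1.1 := by simpa using hxy
      exact t.injective (Subtype.ext (Prod.ext h1.2 h1.1))
    · rintro ⟨⟨a, b⟩, hab⟩
      have hab' : (b, a) ∈ nu.cells := by
        rw [YoungDiagram.mem_cells, YoungDiagram.mem_transpose] at hab
        exact hab
      obtain ⟨x, hx⟩ := t.surjective ⟨(b, a), hab'⟩
      exact ⟨x, by simp [hx]⟩
  refine finrank_intertwining_pos _ _ (exists_intertwining _ (Equiv.ofBijective _ hbij) (Θ u) ?_)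
  intro hzero
  apply hu
  apply hΘinj
  rw [map_zero, ← hzero, map_sum]
  refine Finset.sum_congr rfl (fun ρ _ => ?_)
  rw [hΘ, map_sum]
  congr 2
  refine Finset.sum_congr rfl (fun π _ => ?_)
  rw [map_smul, hΘ, smul_smul]
  have hs : ((Perm.sign π : ℤ) : ℂ) * ((Perm.sign π : ℤ) : ℂ) = 1 := by
    rcases Int.units_eq_one_or (Perm.sign π) with h | h <;> rw [h] <;> simp
  rw [hs, one_smul]

end

end Vale.Agent.P197.TS
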