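import Vale.Agent.P197.TS.Spec
import Mathlib.Algebra.Order.Rearrangement

/-!
# (RK): `R⁺ C⁻` for the labels of an arbitrary diagram does not vanish on some Specht module
-/

namespace Vale.Agent.P197.TS

open Equiv Finset

noncomputable section

namespace RK

variable {X : Type} [Fintype X] [DecidableEq X]

/-- rank of a point in its column (ordered by the row labels) -/
def om (rl cl : X → ℕ) (x : X) : ℕ := (univ.filter fun y => cl y = cl x ∧ rl y < rl x).card

/-- size of the column class `c` -/
def sz (cl : X → ℕ) (c : ℕ) : ℕ := (univ.filter fun y => cl y = c).card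

/-- the column classes -/
def cols (cl : X → ℕ) : Finset ℕ := univ.image cl

/-- position of the column class `c` in the order by decreasing size -/
def pos (cl : X → ℕ) (c : ℕ) : ℕ :=
  ((cols cl).filter fun c' => sz cl c < sz cl c' ∨ (sz cl c' = sz cl c ∧ c' < c)).card

/-- number of columns longer than `i` -/
def cnt (cl : X → ℕ) (i : ℕ) : ℕ := ((cols cl).filter fun c => i < sz cl c).card

omit [DecidableEq X] in
theorem om_lt (rl cl : X → ℕ) (x : X) : om rl cl x < sz cl (cl x) := by
  refine Finset.card_lt_card ?_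
  rw [Finset.ssubset_iff_of_subset]
  · refine ⟨x, ?_, ?_⟩
    · simp
    · simp
  · intro y hy
    simp only [mem_filter, mem_univ, true_and] at hy ⊢
    exact hy.1

omit [DecidableEq X] in
theorem om_le {rl cl : X → ℕ} {x y : X} (hc : cl x = cl y) (h : rl x ≤ rl y) :
    om rl cl x ≤ om rl cl y := by
  refine Finset.card_le_card ?_
  intro z hz
  simp only [mem_filter, mem_univ, true_and] at hz ⊢
  exact ⟨hz.1.trans hc, by omega⟩

omit [DecidableEq X] in
theorem om_strict {rl cl : X → ℕ} {x y : X} (hc : cl x = cl y) (h : rl x < rl y) :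
    om rl cl x < om rl cl y := by
  refine Finset.card_lt_card ?_
  rw [Finset.ssubset_iff_of_subset]
  · refine ⟨x, ?_, ?_⟩
    · simp [hc, h]
    · simp
  · intro z hz
    simp only [mem_filter, mem_univ, true_and] at hz ⊢
    exact ⟨hz.1.trans hc, by omega⟩

theorem om_inj {rl cl : X → ℕ} (hinj : ∀ x y, rl x = rl y → cl x = cl y → x = y) {x y : X}
    (hc : cl x = cl y) (h : om rl cl x = om rl cl y) : x = y := by
  rcases lt_trichotomy (rl x) (rl y) with h1 | h1 | h1
  · have := om_strict hc h1
    omega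
  · exact hinj x y h1 hc
  · have := om_strict hc.symm h1
    omega

omit [DecidableEq X] in
theorem mem_cols (cl : X → ℕ) (x : X) : cl x ∈ cols cl :=
  Finset.mem_image_of_mem _ (mem_univ x)

omit [DecidableEq X] in
theorem pos_lt {cl : X → ℕ} {c : ℕ} (hc : c ∈ cols cl) {i : ℕ} (hi : i < sz cl c) :
    pos cl c < cnt cl i := by
  refine Finset.card_lt_card ?_
  rw [Finset.ssubset_iff_of_subset]
  · refine ⟨c, ?_, ?_⟩
    · simp [hc, hi]
    · simp
  · intro c' hc'
    simp only [mem_filter] at hc' ⊢
    refine ⟨hc'.1, ?_⟩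
    omega

omit [DecidableEq X] in
theorem pos_strict {cl : X → ℕ} {c d : ℕ} (hc : c ∈ cols cl)
    (h : sz cl d < sz cl c ∨ (sz cl c = sz cl d ∧ c < d)) : pos cl c < pos cl d := by
  refine Finset.card_lt_card ?_
  rw [Finset.ssubset_iff_of_subset]
  · refine ⟨c, ?_, ?_⟩
    · simp only [mem_filter]
      exact ⟨hc, h⟩
    · simp
  · intro c' hc'
    simp only [mem_filter] at hc' ⊢
    refine ⟨hc'.1, ?_⟩
    omega

theorem pos_inj {cl : X → ℕ} {c d : ℕ} (hc : c ∈ cols cl) (hd : d ∈ cols cl)
    (h : pos cl c = pos cl d) : c = d := by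
  by_contra hne
  have h1 : (sz cl d < sz cl c ∨ (sz cl c = sz cl d ∧ c < d)) ∨
      (sz cl c < sz cl d ∨ (sz cl d = sz cl c ∧ d < c)) := by omega
  rcases h1 with h1 | h1
  · have := pos_strict hc h1
    omega
  · have := pos_strict hd h1
    omega

omit [DecidableEq X] in
theorem sz_le (cl : X → ℕ) (c : ℕ) : sz cl c ≤ Fintype.card X := by
  unfold sz
  exact Finset.card_le_univ _

omit [DecidableEq X] in
theorem cnt_le (cl : X → ℕ) (i : ℕ) : cnt cl i ≤ Fintype.card X := by
  unfold cnt cols
  refine (Finset.card_filter_le _ _).trans ?_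
  exact Finset.card_image_le.trans (by simp)

omit [DecidableEq X] in
theorem cnt_anti (cl : X → ℕ) {i j : ℕ} (h : i ≤ j) : cnt cl j ≤ cnt cl i := by
  refine Finset.card_le_card ?_
  intro c hc
  simp only [mem_filter] at hc ⊢
  exact ⟨hc.1, by omega⟩

/-- the diagram whose columns have the sizes of the column classes -/
def dia (cl : X → ℕ) : YoungDiagram where
  cells := (Finset.range (Fintype.card X) ×ˢ Finset.range (Fintype.card X)).filter
    fun c => c.2 < cnt cl c.1
  isLowerSet := by
    rintro ⟨a, b⟩ ⟨c, d⟩ hle h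
    simp only [Finset.mem_coe, Finset.mem_filter, Finset.mem_product, Finset.mem_range,
      Prod.mk_le_mk] at *
    have := cnt_anti cl hle.1
    omega

theorem card_dia (cl : X → ℕ) : (dia cl).card = Fintype.card X := by
  have h1 : (dia cl).card = ∑ i ∈ Finset.range (Fintype.card X), cnt cl i := by
    change ((Finset.range (Fintype.card X) ×ˢ Finset.range (Fintype.card X)).filter
      fun c => c.2 < cnt cl c.1).card = _
    rw [Finset.card_filter, Finset.sum_product]
    refine Finset.sum_congr rfl fun i _ => ?_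
    rw [← Finset.card_filter]
    have : (Finset.range (Fintype.card X)).filter (fun a => a < cnt cl i)
        = Finset.range (cnt cl i) := by
      ext a
      have := cnt_le cl i
      simp only [mem_filter, mem_range]
      omega
    rw [this, Finset.card_range]
  rw [h1]
  have h2 : ∀ i, cnt cl i = ∑ c ∈ cols cl, if i < sz cl c then 1 else 0 := by
    intro i
    unfold cnt
    rw [Finset.card_filter]
  simp only [h2]
  rw [Finset.sum_comm]
  have h3 : ∀ c ∈ cols cl, (∑ i ∈ Finset.range (Fintype.card X),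
      if i < sz cl c then 1 else 0) = sz cl c := by
    intro c _
    rw [← Finset.card_filter]
    have : (Finset.range (Fintype.card X)).filter (fun a => a < sz cl c)
        = Finset.range (sz cl c) := by
      ext a
      have := sz_le cl c
      simp only [mem_filter, mem_range]
      omega
    rw [this, Finset.card_range]
  rw [Finset.sum_congr rfl h3]
  unfold sz cols
  rw [← Finset.card_univ (α := X), Finset.card_eq_sum_card_image cl univ]

theorem mem_dia (rl cl : X → ℕ) (x : X) : (om rl cl x, pos cl (cl x)) ∈ (dia cl).cells := by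
  have h1 := om_lt rl cl x
  have h2 := pos_lt (mem_cols cl x) h1
  have h3 := sz_le cl (cl x)
  have h4 := cnt_le cl (om rl cl x)
  simp only [dia, Finset.mem_filter, Finset.mem_product, Finset.mem_range]
  exact ⟨⟨by omega, by omega⟩, h2⟩

/-- the tableau -/
def tab (rl cl : X → ℕ) (hinj : ∀ x y, rl x = rl y → cl x = cl y → x = y) :
    X ≃ (dia cl).cells :=
  Equiv.ofBijective (fun x => ⟨(om rl cl x, pos cl (cl x)), mem_dia rl cl x⟩) (by
    rw [Fintype.bijective_iff_injective_and_card]
    refine ⟨?_, ?_⟩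
    · intro x y hxy
      simp only [Subtype.mk.injEq, Prod.mk.injEq] at hxy
      exact om_inj hinj (pos_inj (mem_cols cl x) (mem_cols cl y) hxy.2) hxy.1
    · rw [Fintype.card_coe]
      exact (card_dia cl).symm)

theorem tab_row (rl cl : X → ℕ) (hinj : ∀ x y, rl x = rl y → cl x = cl y → x = y) (x : X) :
    (tab rl cl hinj x).1.1 = om rl cl x := rfl

theorem tab_col (rl cl : X → ℕ) (hinj : ∀ x y, rl x = rl y → cl x = cl y → x = y) (x : X) :
    (tab rl cl hinj x).1.2 = pos cl (cl x) := rfl

theorem stab_pos (cl : X → ℕ) : stab (fun x => pos cl (cl x)) = stab cl := by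
  ext π
  rw [mem_stab, mem_stab]
  refine ⟨fun h x => ?_, fun h x => ?_⟩
  · exact pos_inj (mem_cols cl _) (mem_cols cl _) (h x)
  · simp only [h x]

theorem polyt_mem (rl cl : X → ℕ) (hinj : ∀ x y, rl x = rl y → cl x = cl y → x = y) :
    polyt cl (om rl cl) ∈ Sp X (dia cl) := by
  refine Submodule.subset_span ⟨tab rl cl hinj, ?_⟩
  have h1 : (fun x => (tab rl cl hinj x).1.2) = fun x => pos cl (cl x) := rfl
  have h2 : (fun x => (tab rl cl hinj x).1.1) = om rl cl := rfl
  rw [h1, h2]
  unfold polyt
  rw [stab_pos]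

/-- the rearrangement potential is maximal only at the identity -/
theorem eq_one (rl cl : X → ℕ) (hinj : ∀ x y, rl x = rl y → cl x = cl y → x = y)
    {π : Perm X} (hπ : π ∈ stab cl)
    (h : ∑ x, rl x * om rl cl (π⁻¹ x) = ∑ x, rl x * om rl cl x) : π = 1 := by
  rw [mem_stab] at hπ
  have hπ' : ∀ x, cl (π⁻¹ x) = cl x := by
    intro x
    have := hπ (π⁻¹ x)
    rw [app_inv] at this
    exact this.symm
  obtain ⟨B, hB⟩ : ∃ B : ℕ, ∀ x : X, rl x < B ∧ om rl cl x < B := by
    refine ⟨∑ x : X, (rl x + om rl cl x) + 1, fun x => ?_⟩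
    have := Finset.single_le_sum (f := fun x : X => rl x + om rl cl x)
      (fun _ _ => Nat.zero_le _) (mem_univ x)
    omega
  set F : X → ℕ := fun x => cl x * B + rl x with hF
  set G : X → ℕ := fun x => cl x * B + om rl cl x with hG
  have hmono : Monovary F G := by
    intro x y hxy
    simp only [hF, hG] at hxy ⊢
    rcases lt_trichotomy (cl x) (cl y) with h1 | h1 | h1
    · have h2 : (cl x + 1) * B ≤ cl y * B := Nat.mul_le_mul_right _ h1
      have h3 := hB x
      rw [add_mul] at h2
      omega
    · rw [h1] at hxy ⊢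
      by_contra hcon
      have h4 : rl y ≤ rl x := by omega
      have := om_le h1.symm h4
      omega
    · have h2 : (cl y + 1) * B ≤ cl x * B := Nat.mul_le_mul_right _ h1
      have h3 := hB y
      rw [add_mul] at h2
      omega
  have hsum : ∑ x, F x * G (π⁻¹ x) = ∑ x, F x * G x := by
    have e1 : ∑ x, cl x * om rl cl (π⁻¹ x) = ∑ x, cl x * om rl cl x := by
      rw [← Equiv.sum_comp π (fun x => cl x * om rl cl (π⁻¹ x))]
      refine Finset.sum_congr rfl fun x _ => ?_
      rw [hπ, inv_app]
    have e2 : ∀ x, F x * G (π⁻¹ x) = (cl x * B) * (cl x * B) + B * (cl x * om rl cl (π⁻¹ x))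
        + rl x * (cl x * B) + rl x * om rl cl (π⁻¹ x) := by
      intro x
      simp only [hF, hG, hπ']
      ring
    have e3 : ∀ x, F x * G x = (cl x * B) * (cl x * B) + B * (cl x * om rl cl x)
        + rl x * (cl x * B) + rl x * om rl cl x := by
      intro x
      simp only [hF, hG]
      ring
    simp only [e2, e3, Finset.sum_add_distrib, ← Finset.mul_sum, e1, h]
  have hm2 : Monovary F (G ∘ ⇑(π⁻¹ : Perm X)) := (hmono.sum_mul_comp_perm_eq_sum_mul_iff).1 hsum
  have key : ∀ x y, cl x = cl y → rl (π⁻¹ x) < rl (π⁻¹ y) → rl x < rl y := by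
    intro x y hc hlt
    have h1 : om rl cl (π⁻¹ x) < om rl cl (π⁻¹ y) := om_strict (by rw [hπ', hπ', hc]) hlt
    have h2 : F x ≤ F y := by
      refine hm2 ?_
      simp only [Function.comp_apply, hG, hπ', hc]
      omega
    have h3 : rl x ≤ rl y := by
      simp only [hF, hc] at h2
      omega
    rcases Nat.lt_or_ge (rl x) (rl y) with h4 | h4
    · exact h4
    · have := hinj x y (by omega) hc
      subst this
      omega
  have key2 : ∀ x y, cl x = cl y → (rl (π⁻¹ x) < rl (π⁻¹ y) ↔ rl x < rl y) := by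
    intro x y hc
    refine ⟨key x y hc, fun h1 => ?_⟩
    rcases lt_trichotomy (rl (π⁻¹ x)) (rl (π⁻¹ y)) with h2 | h2 | h2
    · exact h2
    · have := hinj _ _ h2 (by rw [hπ', hπ', hc])
      have := (π⁻¹).injective this
      subst this
      omega
    · have := key y x hc.symm h2
      omega
  have hom : ∀ x, om rl cl (π⁻¹ x) = om rl cl x := by
    intro x
    unfold om
    refine Finset.card_bij' (fun y _ => π y) (fun y _ => π⁻¹ y) ?_ ?_ ?_ ?_
    · intro y hy
      simp only [mem_filter, mem_univ, true_and] at hy ⊢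
      rw [hπ'] at hy
      refine ⟨by rw [hπ]; exact hy.1, ?_⟩
      rw [← key2 (π y) x (by rw [hπ]; exact hy.1), inv_app]
      exact hy.2
    · intro y hy
      simp only [mem_filter, mem_univ, true_and] at hy ⊢
      rw [hπ', hπ']
      exact ⟨hy.1, (key2 y x hy.1).2 hy.2⟩
    · intro y _
      exact inv_app π y
    · intro y _
      exact app_inv π y
  have hfix : ∀ x, π⁻¹ x = x := fun x => om_inj hinj (hπ' x) (hom x)
  ext x
  rw [Perm.one_apply]
  conv_lhs => rw [← hfix x]
  exact app_inv π x

end RK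

open RK in
theorem pRank : PRank := by
  intro X _ _ rl cl hinj
  refine ⟨dia cl, card_dia cl, polyt cl (om rl cl), RK.polyt_mem rl cl hinj, ?_⟩
  have h1 : ∑ ρ ∈ stab rl, ∑ π ∈ stab cl,
      ((Perm.sign π : ℤ) : ℂ) • wordRep X (ρ * π) (polyt cl (om rl cl))
      = ((stab cl).card : ℂ) • ∑ ρ ∈ stab rl, wordRep X ρ (polyt cl (om rl cl)) := by
    rw [Finset.smul_sum]
    refine Finset.sum_congr rfl fun ρ _ => ?_
    have : ∀ π ∈ stab cl, ((Perm.sign π : ℤ) : ℂ) • wordRep X (ρ * π) (polyt cl (om rl cl))
        = wordRep X ρ (polyt cl (om rl cl)) := by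
      intro π hπ
      rw [wordRep_mul_polyt ρ π _ _ hπ, smul_smul, Conj.sgn_sq, one_smul]
    rw [Finset.sum_congr rfl this, Finset.sum_const, Nat.cast_smul_eq_nsmul]
  rw [h1]
  refine smul_ne_zero ?_ ?_
  · exact_mod_cast Finset.card_ne_zero_of_mem (Conj.one_mem_stab cl)
  intro h0
  have h2 : (∑ ρ ∈ stab rl, wordRep X ρ (polyt cl (om rl cl))) (om rl cl) = 0 := by
    rw [h0]
    rfl
  rw [Finsupp.finsetSum_apply] at h2
  have h3 : ∀ ρ ∈ stab rl, (wordRep X ρ (polyt cl (om rl cl))) (om rl cl)
      = if om rl cl ∘ ⇑(ρ⁻¹ : Perm X) = om rl cl then 1 else 0 := by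
    intro ρ hρ
    rw [wordRep_polyt_expand, Finsupp.finsetSum_apply]
    rw [Finset.sum_eq_single (1 : Perm X)]
    · rw [mul_one]
      simp only [Perm.sign_one, Units.val_one, Int.cast_one, one_smul, Finsupp.single_apply]
    · intro π hπ hne
      rw [Finsupp.smul_apply, Finsupp.single_apply, if_neg, smul_zero]
      intro heq
      apply hne
      refine eq_one rl cl hinj hπ ?_
      have e1 : ∀ x, om rl cl (π⁻¹ (ρ⁻¹ x)) = om rl cl x := by
        intro x
        have := congrFun heq x
        simpa [mul_inv_rev] using this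
      rw [← Equiv.sum_comp (ρ⁻¹ : Perm X) (fun x => rl x * om rl cl (π⁻¹ x))]
      refine Finset.sum_congr rfl fun x _ => ?_
      rw [e1]
      congr 1
      rw [mem_stab] at hρ
      have := hρ (ρ⁻¹ x)
      rw [app_inv] at this
      exact this.symm
    · intro hn
      exact absurd (Conj.one_mem_stab cl) hn
  rw [Finset.sum_congr rfl h3, Finset.sum_boole] at h2
  have h4 : (1 : Perm X) ∈ (stab rl).filter fun ρ => om rl cl ∘ ⇑(ρ⁻¹ : Perm X) = om rl cl := by
    rw [mem_filter]
    exact ⟨Conj.one_mem_stab rl, by ext x; simp⟩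
  have h5 := Finset.card_ne_zero_of_mem h4
  exact h5 (by exact_mod_cast h2)

end

end Vale.Agent.P197.TS
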