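import Vale.Agent.P197.TS.GSpec

/-!
# Tensor squares: the two gap steps for a given diagram (P197, question Q2)
-/

namespace Vale.Agent.P197.TS

open Equiv Finset

noncomputable section

theorem card_of_lab {Y : Type} [Fintype Y] (rl cl : Y → ℕ) (S : Finset (ℕ × ℕ))
    (hmem : ∀ y, (rl y, cl y) ∈ S) (hinj : ∀ y z, rl y = rl z → cl y = cl z → y = z)
    (hsurj : ∀ c ∈ S, ∃ y, rl y = c.1 ∧ cl y = c.2) : Fintype.card Y = S.card := by
  rw [← Fintype.card_coe]
  refine Fintype.card_of_bijective (f := fun y => (⟨(rl y, cl y), hmem y⟩ : S)) ⟨?_, ?_⟩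
  · intro y z h
    have h' := congrArg Subtype.val h
    simp only [Prod.mk.injEq] at h'
    exact hinj y z h'.1 h'.2
  · rintro ⟨c, hc⟩
    obtain ⟨y, h1, h2⟩ := hsurj c hc
    exact ⟨y, Subtype.ext (Prod.ext h1 h2)⟩

theorem exists_phi {Y Z : Type} (rl cl : Y → ℕ) (g : Z → ℕ × ℕ) (hg : Function.Injective g)
    (hinj : ∀ y z, rl y = rl z → cl y = cl z → y = z)
    (hmem : ∀ y, ∃ z, g z = (rl y, cl y))
    (hsurj : ∀ z, ∃ y, rl y = (g z).1 ∧ cl y = (g z).2) :
    ∃ φ : Y ≃ Z, ∀ y, g (φ y) = (rl y, cl y) := by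
  choose f hf using hmem
  have hb : Function.Bijective f := by
    constructor
    · intro y z h
      have h1 := hf y
      have h2 := hf z
      rw [h, h2] at h1
      simp only [Prod.mk.injEq] at h1
      exact hinj y z h1.1.symm h1.2.symm
    · intro z
      obtain ⟨y, h1, h2⟩ := hsurj z
      refine ⟨y, hg ?_⟩
      rw [hf y, h1, h2]
  exact ⟨Equiv.ofBijective f hb, fun y => hf y⟩

/-- the two gap steps -/
theorem two_step (hGap : PGap) (hOT : POccT) (hU : PUniv) {n w e k : ℕ}
    {lam B B' : YoungDiagram} (hs1 : IsStack w e B lam) (hBB : B'.transpose = B)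
    (hs2 : IsStack (w - 1) e (staircase k) B') (rl cl : Fin n → ℕ)
    (hinj : ∀ x y, rl x = rl y → cl x = cl y → x = y) (bd1 bd2 : ℕ → ℕ)
    (Q1 : Fin n → Prop) [DecidablePred Q1] (hQ1 : ∀ x, ¬ Q1 x ↔ rl x < bd1 (cl x))
    (Q2 : {x // Q1 x} → Prop) [DecidablePred Q2]
    (hQ2 : ∀ x, ¬ Q2 x ↔ resW Q1 rl x < bd2 (resW Q1 cl x))
    (h1 : TD w e (B.rowLen 0) (resW (fun x => ¬ Q1 x) rl) (resW (fun x => ¬ Q1 x) cl))
    (h2 : TD (w - 1) e ((staircase k).rowLen 0) (resW (fun x => ¬ Q2 x) (resW Q1 rl))
      (resW (fun x => ¬ Q2 x) (resW Q1 cl)))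
    (hc : Fintype.card {x // Q2 x} = k * (k + 1) / 2) : Occ lam lam rl cl := by
  have h3 : Occ (staircase k) (staircase k) (resW Q2 (resW Q1 rl)) (resW Q2 (resW Q1 cl)) := by
    refine hU k {x // Q2 x} hc _ _ ?_
    intro x y hr hl
    exact Subtype.ext (Subtype.ext (hinj _ _ hr hl))
  have h4 : Occ B' B' (resW Q1 rl) (resW Q1 cl) :=
    hGap {x // Q1 x} Q2 (w - 1) e (staircase k) B' hs2 _ _ bd2 hQ2 h2 h3
  have h5 : Occ B B (resW Q1 rl) (resW Q1 cl) := by
    have := hOT {x // Q1 x} B' _ _ h4
    rwa [hBB] at this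
  exact hGap (Fin n) Q1 w e B lam hs1 rl cl bd1 hQ1 h1 h5

theorem card_last {n : ℕ} (Q1 : Fin n → Prop) [DecidablePred Q1]
    (Q2 : {x // Q1 x} → Prop) [DecidablePred Q2] (a b : ℕ)
    (ha : Fintype.card {x // ¬ Q1 x} = a) (hb : Fintype.card {x // ¬ Q2 x} = b) :
    Fintype.card {x // Q2 x} + b + a = n := by
  have e1 := Fintype.card_subtype_compl Q1
  have e2 := Fintype.card_subtype_compl Q2
  have e3 := Fintype.card_subtype_le Q1
  have e4 := Fintype.card_subtype_le Q2
  rw [Fintype.card_fin] at e1 e3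
  omega

theorem stairArith {w e k n : ℕ} (hkw : 2 * k + 11 ≤ 4 * w)
    (hn : n = 32 * w + 2 * e - 16 + k * (k + 1) / 2) (c : ℕ)
    (hc : c + (16 * (w - 1) + e) + (16 * w + e) = n) : c = k * (k + 1) / 2 := by
  generalize k * (k + 1) / 2 = N at *
  omega

theorem pReg (hGap : PGap) (hTriv : PTriv) (hBlk : PBlock) (hOT : POccT) (hU : PUniv) : PReg := by
  intro w e k n lam B B' nu hkw he hs1 hBB hs2 hb hst hn hcase t
  have hw : 3 ≤ w := by omega
  set rl : Fin n → ℕ := fun x => (t x).1.1 with hrl
  set cl : Fin n → ℕ := fun x => (t x).1.2 with hcl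
  have hmem : ∀ x, (rl x, cl x) ∈ nu := fun x => (t x).2
  have hinj : ∀ x y, rl x = rl y → cl x = cl y → x = y := by
    intro x y h1 h2
    exact t.injective (Subtype.ext (Prod.ext h1 h2))
  have hsurj : ∀ a c, (a, c) ∈ nu → ∃ x, rl x = a ∧ cl x = c := by
    intro a c h
    refine ⟨t.symm ⟨(a, c), h⟩, ?_, ?_⟩
    · simp only [hrl, Equiv.apply_symm_apply]
    · simp only [hcl, Equiv.apply_symm_apply]
  rcases hcase with hrow | hbox
  · -- long first row
    have hin : ∀ c, c < 32 * w + 2 * e - 16 → (0, c) ∈ nu := fun c hc =>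
      YoungDiagram.mem_iff_lt_rowLen.2 (lt_of_lt_of_le hc hrow)
    set bd1 : ℕ → ℕ := fun c => if c < 16 * w + e then 1 else 0 with hbd1
    set bd2 : ℕ → ℕ := fun c => if 16 * w + e ≤ c ∧ c < 32 * w + 2 * e - 16 then 1 else 0
      with hbd2
    let Q1 : Fin n → Prop := fun x => ¬ (rl x < bd1 (cl x))
    let Q2 : {x // Q1 x} → Prop := fun x => ¬ (resW Q1 rl x < bd2 (resW Q1 cl x))
    have hQ1 : ∀ x, ¬ Q1 x ↔ rl x < bd1 (cl x) := fun x => not_not
    have hQ2 : ∀ x, ¬ Q2 x ↔ resW Q1 rl x < bd2 (resW Q1 cl x) := fun x => not_not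
    have z1 : ∀ x : {x // ¬ Q1 x}, rl x.1 = 0 ∧ cl x.1 < 16 * w + e := by
      intro x
      have h := (hQ1 x.1).1 x.2
      simp only [hbd1] at h
      split_ifs at h with h' <;> omega
    have z2 : ∀ x : {x // ¬ Q2 x}, rl x.1.1 = 0 ∧ 16 * w + e ≤ cl x.1.1 ∧
        cl x.1.1 < 32 * w + 2 * e - 16 := by
      intro x
      have h := (hQ2 x.1).1 x.2
      simp only [hbd2, resW] at h
      split_ifs at h with h' <;> omega
    have c1 : Fintype.card {x // ¬ Q1 x} = 16 * w + e := by
      rw [card_of_lab (fun x : {x // ¬ Q1 x} => 0) (fun x => cl x.1)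
        ((Finset.range (16 * w + e)).image fun c => (0, c))]
      · rw [Finset.card_image_of_injective _ (fun a b h => by simpa using h), Finset.card_range]
      · intro y
        simp only [Finset.mem_image, Finset.mem_range, Prod.mk.injEq, true_and, exists_eq_right]
        exact (z1 y).2
      · intro y z _ h
        exact Subtype.ext (hinj _ _ (by rw [(z1 y).1, (z1 z).1]) h)
      · intro c hc
        simp only [Finset.mem_image, Finset.mem_range] at hc
        obtain ⟨a, ha, rfl⟩ := hc
        obtain ⟨x, hx1, hx2⟩ := hsurj 0 a (hin a (by omega))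
        refine ⟨⟨x, (hQ1 x).2 ?_⟩, rfl, hx2⟩
        rw [hx1, hx2]
        simp only [hbd1, if_pos ha]
        omega
    have c2 : Fintype.card {x // ¬ Q2 x} = 16 * (w - 1) + e := by
      rw [card_of_lab (fun x : {x // ¬ Q2 x} => 0) (fun x => cl x.1.1 - (16 * w + e))
        ((Finset.range (16 * (w - 1) + e)).image fun c => (0, c))]
      · rw [Finset.card_image_of_injective _ (fun a b h => by simpa using h), Finset.card_range]
      · intro y
        simp only [Finset.mem_image, Finset.mem_range, Prod.mk.injEq, true_and, exists_eq_right]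
        have := z2 y
        omega
      · intro y z _ h
        have hy := z2 y
        have hz := z2 z
        exact Subtype.ext (Subtype.ext (hinj _ _ (by rw [hy.1, hz.1])
          (by change cl y.1.1 - _ = cl z.1.1 - _ at h; omega)))
      · intro c hc
        simp only [Finset.mem_image, Finset.mem_range] at hc
        obtain ⟨a, ha, rfl⟩ := hc
        obtain ⟨x, hx1, hx2⟩ := hsurj 0 (a + (16 * w + e)) (hin _ (by omega))
        have hq1 : Q1 x := by
          simp only [Q1, hx1, hx2, hbd1]
          rw [if_neg (by omega)]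
          omega
        refine ⟨⟨⟨x, hq1⟩, (hQ2 _).2 ?_⟩, rfl, ?_⟩
        · simp only [resW, hx1, hx2, hbd2]
          rw [if_pos (by omega)]
          omega
        · simp only [hx2]
          omega
    refine two_step hGap hOT hU hs1 hBB hs2 rl cl hinj bd1 bd2 Q1 hQ1 Q2 hQ2 ?_ ?_ ?_
    · rw [hb]
      refine hTriv {x // ¬ Q1 x} w e (k + 4) _ _ c1 ?_ (by omega)
      intro y z h
      exact Subtype.ext (hinj _ _ (by rw [(z1 y).1, (z1 z).1]) h)
    · rw [hst]
      refine hTriv {x // ¬ Q2 x} (w - 1) e k _ _ c2 ?_ (by omega)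
      intro y z h
      exact Subtype.ext (Subtype.ext (hinj _ _ (by rw [(z2 y).1, (z2 z).1]) h))
    · exact stairArith hkw hn _ (card_last Q1 Q2 _ _ c1 c2)
  · -- large rectangle
    have hin : ∀ a c, a ≤ 31 → c ≤ w + 31 → (a, c) ∈ nu := fun a c ha hc =>
      nu.up_left_mem ha hc hbox
    set bd1 : ℕ → ℕ := fun c => if c < w then 16 else if c < w + e then 1 else 0 with hbd1
    set bd2 : ℕ → ℕ := fun c => if c < w - 1 then 32 else
      if w + e ≤ c ∧ c < w + 2 * e then 1 else 0 with hbd2
    let Q1 : Fin n → Prop := fun x => ¬ (rl x < bd1 (cl x))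
    let Q2 : {x // Q1 x} → Prop := fun x => ¬ (resW Q1 rl x < bd2 (resW Q1 cl x))
    have hQ1 : ∀ x, ¬ Q1 x ↔ rl x < bd1 (cl x) := fun x => not_not
    have hQ2 : ∀ x, ¬ Q2 x ↔ resW Q1 rl x < bd2 (resW Q1 cl x) := fun x => not_not
    -- first region
    let g1 : (Fin w × Fin 4 × Fin 4) ⊕ Fin e → ℕ × ℕ := fun z => match z with
      | Sum.inl p => (4 * p.2.1 + p.2.2, p.1)
      | Sum.inr s => (0, w + s)
    have hg1 : Function.Injective g1 := by
      rintro (⟨q, a, c⟩ | s) (⟨q', a', c'⟩ | s') h <;> simp only [g1, Prod.mk.injEq] at h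
      · have ha := a.2; have hc := c.2; have ha' := a'.2; have hc' := c'.2
        have e1 : q = q' := Fin.ext h.2
        have e2 : a = a' := Fin.ext (by omega)
        have e3 : c = c' := Fin.ext (by omega)
        rw [e1, e2, e3]
      · have := q.2; omega
      · have := q'.2; omega
      · have e1 : s = s' := Fin.ext (by omega)
        rw [e1]
    obtain ⟨φ1, hφ1⟩ := exists_phi (Y := {x // ¬ Q1 x}) (fun x => rl x.1) (fun x => cl x.1) g1 hg1
      (fun y z h h' => Subtype.ext (hinj _ _ h h'))
      (by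
        intro y
        have h := (hQ1 y.1).1 y.2
        simp only [hbd1] at h
        split_ifs at h with h' h''
        · refine ⟨Sum.inl (⟨cl y.1, h'⟩, ⟨rl y.1 / 4, by omega⟩, ⟨rl y.1 % 4, by omega⟩), ?_⟩
          simp only [g1, Prod.mk.injEq, and_true]
          omega
        · refine ⟨Sum.inr ⟨cl y.1 - w, by omega⟩, ?_⟩
          simp only [g1, Prod.mk.injEq]
          omega
        · omega)
      (by
        rintro (⟨q, a, c⟩ | s)
        · have ha := a.2; have hc := c.2; have hq := q.2
          obtain ⟨x, hx1, hx2⟩ := hsurj (4 * a + c) q (hin _ _ (by omega) (by omega))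
          refine ⟨⟨x, (hQ1 x).2 ?_⟩, hx1, hx2⟩
          rw [hx1, hx2]
          simp only [hbd1, if_pos hq]
          omega
        · have hs := s.2
          obtain ⟨x, hx1, hx2⟩ := hsurj 0 (w + s) (hin _ _ (by omega) (by omega))
          refine ⟨⟨x, (hQ1 x).2 ?_⟩, hx1, hx2⟩
          rw [hx1, hx2]
          simp only [hbd1]
          rw [if_neg (by omega), if_pos (by omega)]
          omega)
    -- second region
    let g2 : (Fin (w - 1) × Fin 4 × Fin 4) ⊕ Fin e → ℕ × ℕ := fun z => match z with
      | Sum.inl p => (16 + (4 * p.2.1 + p.2.2), p.1)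
      | Sum.inr s => (0, w + e + s)
    have hg2 : Function.Injective g2 := by
      rintro (⟨q, a, c⟩ | s) (⟨q', a', c'⟩ | s') h <;> simp only [g2, Prod.mk.injEq] at h
      · have ha := a.2; have hc := c.2; have ha' := a'.2; have hc' := c'.2
        have e1 : q = q' := Fin.ext h.2
        have e2 : a = a' := Fin.ext (by omega)
        have e3 : c = c' := Fin.ext (by omega)
        rw [e1, e2, e3]
      · omega
      · omega
      · have e1 : s = s' := Fin.ext (by omega)
        rw [e1]
    obtain ⟨φ2, hφ2⟩ := exists_phi (Y := {x // ¬ Q2 x}) (fun x => rl x.1.1) (fun x => cl x.1.1)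
      g2 hg2 (fun y z h h' => Subtype.ext (Subtype.ext (hinj _ _ h h')))
      (by
        intro y
        have h := (hQ2 y.1).1 y.2
        have h1 : ¬ (rl y.1.1 < bd1 (cl y.1.1)) := y.1.2
        simp only [hbd2, resW] at h
        simp only [hbd1] at h1
        split_ifs at h with h' h''
        · rw [if_pos (by omega)] at h1
          refine ⟨Sum.inl (⟨cl y.1.1, h'⟩, ⟨(rl y.1.1 - 16) / 4, by omega⟩,
            ⟨(rl y.1.1 - 16) % 4, by omega⟩), ?_⟩
          simp only [g2, Prod.mk.injEq, and_true]
          omega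
        · refine ⟨Sum.inr ⟨cl y.1.1 - (w + e), by omega⟩, ?_⟩
          simp only [g2, Prod.mk.injEq]
          omega
        · omega)
      (by
        rintro (⟨q, a, c⟩ | s)
        · have ha := a.2; have hc := c.2; have hq := q.2
          obtain ⟨x, hx1, hx2⟩ := hsurj (16 + (4 * a + c)) q (hin _ _ (by omega) (by omega))
          have hq1 : Q1 x := by
            simp only [Q1, hx1, hx2, hbd1]
            rw [if_pos (by omega)]
            omega
          refine ⟨⟨⟨x, hq1⟩, (hQ2 _).2 ?_⟩, hx1, hx2⟩
          simp only [resW, hx1, hx2, hbd2]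
          rw [if_pos (by omega)]
          omega
        · have hs := s.2
          obtain ⟨x, hx1, hx2⟩ := hsurj 0 (w + e + s) (hin _ _ (by omega) (by omega))
          have hq1 : Q1 x := by
            simp only [Q1, hx1, hx2, hbd1]
            rw [if_neg (by omega), if_neg (by omega)]
            omega
          refine ⟨⟨⟨x, hq1⟩, (hQ2 _).2 ?_⟩, hx1, hx2⟩
          simp only [resW, hx1, hx2, hbd2]
          rw [if_neg (by omega), if_pos (by omega)]
          omega)
    have cardZ : ∀ v : ℕ, Fintype.card ((Fin v × Fin 4 × Fin 4) ⊕ Fin e) = 16 * v + e := by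
      intro v
      simp only [Fintype.card_sum, Fintype.card_prod, Fintype.card_fin]
      ring
    have c1 : Fintype.card {x // ¬ Q1 x} = 16 * w + e := by
      rw [Fintype.card_congr φ1, cardZ]
    have c2 : Fintype.card {x // ¬ Q2 x} = 16 * (w - 1) + e := by
      rw [Fintype.card_congr φ2, cardZ]
    refine two_step hGap hOT hU hs1 hBB hs2 rl cl hinj bd1 bd2 Q1 hQ1 Q2 hQ2 ?_ ?_ ?_
    · rw [hb]
      refine hBlk {x // ¬ Q1 x} w e (k + 4) φ1 _ _ (by omega) ?_ ?_
      · intro y z
        have e1 := congrArg Prod.snd (hφ1 y)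
        have e2 := congrArg Prod.snd (hφ1 z)
        simp only [resW]
        simp only at e1 e2
        rw [← e1, ← e2]
        generalize φ1 y = y' at *
        generalize φ1 z = z' at *
        rcases y' with ⟨q, a, c⟩ | s <;> rcases z' with ⟨q', a', c'⟩ | s' <;>
          simp only [g1, blk]
      · intro y z
        have e1 := congrArg Prod.fst (hφ1 y)
        have e2 := congrArg Prod.fst (hφ1 z)
        simp only [resW]
        simp only at e1 e2
        rw [← e1, ← e2]
        generalize φ1 y = y' at *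
        generalize φ1 z = z' at *
        rcases y' with ⟨q, a, c⟩ | s <;> rcases z' with ⟨q', a', c'⟩ | s' <;>
          simp only [g1, ltr, Prod.mk.injEq] <;> intro h
        · have := a.2; have := c.2; have := a'.2; have := c'.2
          omega
        · omega
        · omega
        · trivial
    · rw [hst]
      refine hBlk {x // ¬ Q2 x} (w - 1) e k φ2 _ _ (by omega) ?_ ?_
      · intro y z
        have e1 := congrArg Prod.snd (hφ2 y)
        have e2 := congrArg Prod.snd (hφ2 z)
        simp only [resW]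
        simp only at e1 e2
        rw [← e1, ← e2]
        generalize φ2 y = y' at *
        generalize φ2 z = z' at *
        rcases y' with ⟨q, a, c⟩ | s <;> rcases z' with ⟨q', a', c'⟩ | s' <;>
          simp only [g2, blk]
        · have := q.2
          omega
        · have := q'.2
          omega
        · omega
      · intro y z
        have e1 := congrArg Prod.fst (hφ2 y)
        have e2 := congrArg Prod.fst (hφ2 z)
        simp only [resW]
        simp only at e1 e2
        rw [← e1, ← e2]
        generalize φ2 y = y' at *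
        generalize φ2 z = z' at *
        rcases y' with ⟨q, a, c⟩ | s <;> rcases z' with ⟨q', a', c'⟩ | s' <;>
          simp only [g2, ltr, Prod.mk.injEq] <;> intro h
        · have := a.2; have := c.2; have := a'.2; have := c'.2
          omega
        · omega
        · omega
        · trivial
    · exact stairArith hkw hn _ (card_last Q1 Q2 _ _ c1 c2)

end

end Vale.Agent.P197.TS
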