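import Vale.Agent.P197.TS.Spec

/-!
# (TR): transport of `Occ` along a bijection (P197, question Q2)
-/

namespace Vale.Agent.P197.TS

open Equiv Finset

noncomputable section

namespace Tr

variable {X Y : Type}

/-- relabelling of words along `e` -/
def wordE (e : X ≃ Y) : (X → ℕ) ≃ (Y → ℕ) where
  toFun u := u ∘ e.symm
  invFun u := u ∘ e
  left_inv u := by
    funext x
    simp
  right_inv u := by
    funext y
    simp

/-- relabelling of functions on words -/
def tr (e : X ≃ Y) : WM X ≃ₗ[ℂ] WM Y := Finsupp.domLCongr (wordE e)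

theorem tr_single (e : X ≃ Y) (u : X → ℕ) (a : ℂ) :
    tr e (Finsupp.single u a) = Finsupp.single (u ∘ e.symm) a := by
  unfold tr
  rw [Finsupp.domLCongr_single]
  rfl

theorem permCongr_inv_apply (e : X ≃ Y) (g : Perm X) (y : Y) :
    (e.permCongr g)⁻¹ y = e (g⁻¹ (e.symm y)) := rfl

theorem permCongr_mul' (e : X ≃ Y) (g h : Perm X) :
    e.permCongr (g * h) = e.permCongr g * e.permCongr h := by
  ext y
  simp [Equiv.permCongr_apply]

theorem tr_wordRep (e : X ≃ Y) (g : Perm X) (v : WM X) :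
    tr e (wordRep X g v) = wordRep Y (e.permCongr g) (tr e v) := by
  have h : (tr e).toLinearMap ∘ₗ wordRep X g =
      wordRep Y (e.permCongr g) ∘ₗ (tr e).toLinearMap := by
    refine Finsupp.lhom_ext fun u a => ?_
    rw [LinearMap.comp_apply, LinearMap.comp_apply, wordRep_single, LinearEquiv.coe_coe,
      tr_single, tr_single, wordRep_single]
    refine congrArg (fun z => Finsupp.single z a) ?_
    funext y
    simp only [Function.comp_apply]
    rw [permCongr_inv_apply, Equiv.symm_apply_apply]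
  exact LinearMap.congr_fun h v

theorem tr_polyt [Fintype X] [DecidableEq X] [Fintype Y] [DecidableEq Y] (e : X ≃ Y)
    (c r : X → ℕ) : tr e (polyt c r) = polyt (c ∘ e.symm) (r ∘ e.symm) := by
  unfold polyt
  rw [map_sum, Quat.sum_stab_transport e (c ∘ e.symm) c (fun a b => by simp)]
  refine Finset.sum_congr rfl fun σ _ => ?_
  rw [map_smul, tr_single, Equiv.Perm.sign_permCongr]
  refine congrArg (fun z => ((Perm.sign σ : ℤ) : ℂ) • Finsupp.single z (1 : ℂ)) ?_
  funext y
  simp only [Function.comp_apply]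
  rw [permCongr_inv_apply, Equiv.symm_apply_apply]

theorem tr_mem [Fintype X] [DecidableEq X] [Fintype Y] [DecidableEq Y] (e : X ≃ Y)
    (lam : YoungDiagram) {v : WM X} (hv : v ∈ Sp X lam) : tr e v ∈ Sp Y lam := by
  have h : Sp X lam ≤ (Sp Y lam).comap (tr e).toLinearMap := by
    refine Submodule.span_le.2 ?_
    rintro _ ⟨t, rfl⟩
    refine Submodule.subset_span ⟨e.symm.trans t, ?_⟩
    exact tr_polyt e _ _
  exact h hv

/-- the transported form -/
def trForm (e : X ≃ Y) (b : BF X) : BF Y :=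
  b.compl₁₂ (tr e).symm.toLinearMap (tr e).symm.toLinearMap

theorem Fn_trForm (e : X ≃ Y) (b : BF X) (v w : WM X) (h : Perm X) :
    Fn (trForm e b) (tr e v) (tr e w) (e.permCongr h) = Fn b v w h := by
  unfold Fn trForm
  rw [← tr_wordRep, ← tr_wordRep, LinearMap.compl₁₂_apply]
  simp only [LinearEquiv.coe_coe, LinearEquiv.symm_apply_apply]

theorem occ_tr [Fintype X] [DecidableEq X] [Fintype Y] [DecidableEq Y] (e : X ≃ Y)
    (rl cl : Y → ℕ) (F : Perm Y → ℂ) :
    occ rl cl F = occ (rl ∘ e) (cl ∘ e) (fun h => F (e.permCongr h)) := by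
  unfold occ
  rw [Quat.sum_stab_transport e rl (rl ∘ e) (fun a b => Iff.rfl)]
  refine Finset.sum_congr rfl fun ρ _ => ?_
  rw [Quat.sum_stab_transport e cl (cl ∘ e) (fun a b => Iff.rfl)]
  refine Finset.sum_congr rfl fun π _ => ?_
  rw [Equiv.Perm.sign_permCongr, ← permCongr_mul']

end Tr

open Tr in
/-- (TR) -/
theorem pTrans : PTrans := by
  intro X Y _ _ _ _ e lam mu rl cl h
  obtain ⟨b, v, hv, w, hw, hne⟩ := h
  refine ⟨trForm e b, tr e v, tr_mem e lam hv, tr e w, tr_mem e mu hw, ?_⟩
  rw [occ_tr e]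
  have hF : (fun h => Fn (trForm e b) (tr e v) (tr e w) (e.permCongr h)) = Fn b v w := by
    funext h
    exact Fn_trForm e b v w h
  rw [hF]
  exact hne

end

end Vale.Agent.P197.TS
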