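import Vale.Agent.P197.TS.Spec

/-!
# The sign twist of Specht modules (blocks TW, OT)
-/

namespace Vale.Agent.P197.TS

open Equiv Finset

noncomputable section

section

variable {X : Type} [Fintype X] [DecidableEq X]

theorem tw_one_mem (f : X → ℕ) : (1 : Perm X) ∈ stab f := by simp [stab]

theorem tw_inv_mem {f : X → ℕ} {π : Perm X} (h : π ∈ stab f) : π⁻¹ ∈ stab f := by
  rw [mem_stab] at h ⊢
  intro x
  have := h (π⁻¹ x)
  simpa using this.symm

theorem tw_mul_mem {f : X → ℕ} {π σ : Perm X} (h : π ∈ stab f) (h' : σ ∈ stab f) :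
    π * σ ∈ stab f := by
  rw [mem_stab] at h h' ⊢
  intro x
  rw [Perm.mul_apply, h, h']

theorem tw_sgn_mul (g h : Perm X) : ((Perm.sign (g * h) : ℤ) : ℂ)
    = ((Perm.sign g : ℤ) : ℂ) * ((Perm.sign h : ℤ) : ℂ) := by
  rw [Perm.sign_mul]
  push_cast
  rfl

theorem tw_sgn_sq (g : Perm X) : ((Perm.sign g : ℤ) : ℂ) * ((Perm.sign g : ℤ) : ℂ) = 1 := by
  rw [← tw_sgn_mul, Perm.sign_mul, Int.units_mul_self]
  simp

theorem tw_sgn_inv (g : Perm X) : ((Perm.sign g⁻¹ : ℤ) : ℂ) = ((Perm.sign g : ℤ) : ℂ) := by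
  rw [Perm.sign_inv]

omit [Fintype X] [DecidableEq X] in
theorem tw_wordRep_mul (g h : Perm X) (v : WM X) :
    wordRep X (g * h) v = wordRep X g (wordRep X h v) := by
  rw [map_mul]
  rfl

/-- Specht submodules are invariant. -/
theorem Sp_stable (mu : YoungDiagram) (g : Perm X) {v : WM X} (hv : v ∈ Sp X mu) :
    wordRep X g v ∈ Sp X mu := by
  have h : Sp X mu ≤ (Sp X mu).comap (wordRep X g) := by
    unfold Sp
    rw [Submodule.span_le]
    rintro v ⟨t, rfl⟩
    refine Submodule.subset_span ⟨(g⁻¹ : Perm X).trans t, ?_⟩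
    rw [wordRep_polyt]
    rfl
  exact h hv

/-- The sign-twisted equivariant map of a pair of labellings: it maps the word `r` to
`polyt r c`. -/
def tw (c r : X → ℕ) : WM X →ₗ[ℂ] WM X :=
  Finsupp.linearCombination ℂ fun u => ∑ g ∈ Finset.univ.filter
    (fun g : Perm X => r ∘ ⇑(g⁻¹ : Perm X) = u),
    ((Perm.sign g : ℤ) : ℂ) • Finsupp.single (c ∘ ⇑(g⁻¹ : Perm X)) (1 : ℂ)

theorem tw_single (c r u : X → ℕ) :
    tw c r (Finsupp.single u 1) = ∑ g ∈ Finset.univ.filter
      (fun g : Perm X => r ∘ ⇑(g⁻¹ : Perm X) = u),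
      ((Perm.sign g : ℤ) : ℂ) • Finsupp.single (c ∘ ⇑(g⁻¹ : Perm X)) (1 : ℂ) := by
  rw [tw, Finsupp.linearCombination_single, one_smul]

theorem tw_equiv (c r : X → ℕ) (g : Perm X) (v : WM X) :
    tw c r (wordRep X g v) = ((Perm.sign g : ℤ) : ℂ) • wordRep X g (tw c r v) := by
  have h : (tw c r).comp (wordRep X g)
      = ((Perm.sign g : ℤ) : ℂ) • (wordRep X g).comp (tw c r) := by
    ext1 u
    refine LinearMap.ext_ring ?_
    simp only [LinearMap.comp_apply, LinearMap.smul_apply, Finsupp.lsingle_apply, wordRep_single,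
      tw_single, map_sum, map_smul, Finset.smul_sum, smul_smul]
    refine Finset.sum_nbij' (fun k => g⁻¹ * k) (fun k => g * k) ?_ ?_ ?_ ?_ ?_
    · intro k hk
      simp only [mem_filter, mem_univ, true_and] at hk ⊢
      funext x
      have := congrFun hk (g x)
      simpa using this
    · intro k hk
      simp only [mem_filter, mem_univ, true_and] at hk ⊢
      funext x
      have := congrFun hk (g⁻¹ x)
      simpa using this
    · intro k _
      simp
    · intro k _
      simp
    · intro k _
      have h1 : (c ∘ ⇑((g⁻¹ * k)⁻¹ : Perm X)) ∘ ⇑(g⁻¹ : Perm X)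
          = c ∘ ⇑(k⁻¹ : Perm X) := by
        funext x
        simp
      rw [h1, tw_sgn_mul, tw_sgn_inv, ← mul_assoc, tw_sgn_sq, one_mul]
  exact LinearMap.congr_fun h v

theorem tw_base (c r : X → ℕ) : tw c r (Finsupp.single r 1) = polyt r c := by
  rw [tw_single]
  unfold polyt
  refine Finset.sum_congr ?_ fun _ _ => rfl
  ext π
  rw [mem_stab]
  simp only [mem_filter, mem_univ, true_and]
  constructor
  · intro h x
    have := congrFun h (π x)
    simpa using this.symm
  · intro h
    funext x
    have := h (π⁻¹ x)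
    simpa using this.symm

/-- The image of the polytabloid. -/
theorem tw_polyt (c r : X → ℕ) :
    tw c r (polyt c r) = ∑ π ∈ stab c, wordRep X π (polyt r c) := by
  conv_lhs => unfold polyt
  rw [map_sum]
  refine Finset.sum_congr rfl fun π _ => ?_
  rw [map_smul, ← wordRep_single, tw_equiv, tw_base, smul_smul, tw_sgn_sq, one_smul]

/-- The coefficient of the word `c` in the image of the polytabloid. -/
theorem tw_polyt_coeff (c r : X → ℕ) (hinj : ∀ x y, r x = r y → c x = c y → x = y) :
    tw c r (polyt c r) c = ((stab c).card : ℂ) := by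
  rw [tw_polyt, Finset.sum_apply']
  have key : ∀ π ∈ stab c, (wordRep X π (polyt r c)) c = 1 := by
    intro π hπ
    rw [wordRep_polyt_expand, Finset.sum_apply', Finset.sum_eq_single (1 : Perm X)]
    · rw [mul_one]
      have h1 : c ∘ ⇑(π⁻¹ : Perm X) = c := by
        have := (mem_stab.1 (tw_inv_mem hπ))
        funext x
        exact this x
      rw [h1]
      simp
    · intro ρ hρ hne
      have h2 : c ∘ ⇑((π * ρ)⁻¹ : Perm X) ≠ c := by
        intro h
        apply hne
        have h3 : ρ ∈ stab c := by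
          rw [mem_stab]
          intro x
          have h4 := congrFun h (π (ρ x))
          have h5 := mem_stab.1 hπ (ρ x)
          rw [Function.comp_apply, mul_inv_rev, Perm.mul_apply, inv_app, inv_app] at h4
          rw [h4, h5]
        rw [mem_stab] at h3 hρ
        refine Equiv.ext fun x => ?_
        exact hinj _ _ (hρ x) (h3 x)
      rw [Finsupp.smul_apply, Finsupp.single_apply, if_neg h2, smul_zero]
    · intro h
      exact absurd (tw_one_mem r) h
  rw [Finset.sum_congr rfl key]
  simp

/-- any two tableaux differ by a permutation of the points -/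
theorem polyt_of_tab {mu : YoungDiagram} (t t' : X ≃ mu.cells) :
    polyt (fun x => (t' x).1.2) (fun x => (t' x).1.1) =
      wordRep X (t.trans t'.symm) (polyt (fun x => (t x).1.2) (fun x => (t x).1.1)) := by
  rw [wordRep_polyt]
  congr 1
  · funext x
    simp [Perm.inv_def]
  · funext x
    simp [Perm.inv_def]

/-- the transposed tableau -/
theorem polyt_transpose_mem {mu : YoungDiagram} (t : X ≃ mu.cells) :
    polyt (fun x => (t x).1.1) (fun x => (t x).1.2) ∈ Sp X mu.transpose := by
  have hm : ∀ c : ℕ × ℕ, c ∈ mu.cells ↔ c.swap ∈ mu.transpose.cells := by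
    intro c
    rw [YoungDiagram.mem_cells, YoungDiagram.mem_cells, YoungDiagram.mem_transpose]
    simp
  let t' : X ≃ mu.transpose.cells :=
    t.trans ((Equiv.prodComm ℕ ℕ).subtypeEquiv fun c => hm c)
  refine Submodule.subset_span ⟨t', ?_⟩
  rfl

end

/-- **(TW)** from irreducibility. -/
theorem pTw_of (hI : PIrr) : PTw := by
  intro X _ _ mu
  by_cases ht : Nonempty (X ≃ mu.cells)
  · obtain ⟨t⟩ := ht
    set c : X → ℕ := fun x => (t x).1.2 with hc
    set r : X → ℕ := fun x => (t x).1.1 with hr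
    have hinj : ∀ x y, r x = r y → c x = c y → x = y := by
      intro x y h1 h2
      apply t.injective
      apply Subtype.ext
      exact Prod.ext h1 h2
    have himg : ∀ v ∈ Sp X mu, tw c r v ∈ Sp X mu.transpose := by
      intro v hv
      have h : Sp X mu ≤ (Sp X mu.transpose).comap (tw c r) := by
        conv_lhs => unfold Sp
        rw [Submodule.span_le]
        rintro v ⟨t', rfl⟩
        show tw c r _ ∈ Sp X mu.transpose
        rw [polyt_of_tab t t', tw_equiv, tw_polyt]
        refine Submodule.smul_mem _ _ (Sp_stable _ _ ?_)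
        refine Submodule.sum_mem _ fun π _ => Sp_stable _ _ ?_
        exact polyt_transpose_mem t
      exact h hv
    refine ⟨tw c r, fun g v => tw_equiv c r g v, himg, ?_⟩
    have hV := hI X mu (Sp X mu ⊓ LinearMap.ker (tw c r)) inf_le_left ?_
    · by_contra hne
      push Not at hne
      obtain ⟨v, hv, h0, hv0⟩ := hne
      have h1 : Sp X mu ⊓ LinearMap.ker (tw c r) ≠ ⊥ := by
        intro h
        apply hv0
        have : v ∈ Sp X mu ⊓ LinearMap.ker (tw c r) := ⟨hv, h0⟩
        rw [h] at this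
        simpa using this
      have h2 := hV h1
      have h3 : polyt c r ∈ Sp X mu := Submodule.subset_span ⟨t, rfl⟩
      rw [← h2] at h3
      have h4 : tw c r (polyt c r) = 0 := h3.2
      have h5 := tw_polyt_coeff c r hinj
      rw [h4] at h5
      have h6 : ((stab c).card : ℂ) ≠ 0 := by
        rw [Nat.cast_ne_zero]
        exact Finset.card_ne_zero_of_mem (tw_one_mem c)
      exact h6 (by rw [← h5]; rfl)
    · rintro g v ⟨h1, h2⟩
      refine ⟨Sp_stable mu g h1, ?_⟩
      show tw c r (wordRep X g v) = 0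
      have h3 : tw c r v = 0 := h2
      rw [tw_equiv, h3, map_zero, smul_zero]
  · have hbot : Sp X mu = ⊥ := by
      unfold Sp
      rw [Submodule.span_eq_bot]
      rintro v ⟨t, -⟩
      exact absurd ⟨t⟩ ht
    refine ⟨0, fun g v => by simp, fun v _ => by simp, fun v hv _ => ?_⟩
    rw [hbot] at hv
    simpa using hv

/-- **(OT)** from the sign twist. -/
theorem pOccT_of (hT : PTw) : POccT := by
  intro X _ _ mu rl cl ⟨b, v, hv, w, hw, hne⟩
  obtain ⟨θ, h1, h2, h3⟩ := hT X mu
  set f : Sp X mu →ₗ[ℂ] WM X := θ.comp (Sp X mu).subtype with hf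
  have hker : LinearMap.ker f = ⊥ := by
    rw [LinearMap.ker_eq_bot']
    intro m hm
    exact Subtype.ext (h3 m.1 m.2 hm)
  obtain ⟨L, hL⟩ := LinearMap.exists_leftInverse_of_injective (V := Sp X mu) (V' := WM X) f hker
  have hL' : ∀ u ∈ Sp X mu, ((L (θ u) : Sp X mu) : WM X) = u := by
    intro u hu
    have := LinearMap.congr_fun hL ⟨u, hu⟩
    exact congrArg Subtype.val this
  set P : WM X →ₗ[ℂ] WM X := (Sp X mu).subtype.comp L with hP
  refine ⟨b.compl₁₂ P P, θ v, h2 v hv, θ w, h2 w hw, ?_⟩
  have hF : Fn (b.compl₁₂ P P) (θ v) (θ w) = Fn b v w := by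
    funext h
    have e : ∀ u ∈ Sp X mu, P (wordRep X h (θ u)) =
        ((Perm.sign h : ℤ) : ℂ) • wordRep X h u := by
      intro u hu
      have e1 : wordRep X h (θ u) = ((Perm.sign h : ℤ) : ℂ) • θ (wordRep X h u) := by
        rw [h1, smul_smul, tw_sgn_sq, one_smul]
      rw [e1, map_smul]
      congr 1
      exact hL' _ (Sp_stable mu h hu)
    show b (P (wordRep X h (θ v))) (P (wordRep X h (θ w))) = b (wordRep X h v) (wordRep X h w)
    rw [e v hv, e w hw, map_smul, map_smul, LinearMap.smul_apply, smul_smul, tw_sgn_sq, one_smul]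
  rw [hF]
  exact hne

end

end Vale.Agent.P197.TS
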