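import Vale.Agent.P197.TS.Spec

/-!
# Universality of the tensor square of the staircase for labels of arbitrary diagrams

`PUniv` from `PRank`, `PIrr`, `PTrans` and Saxl's conjecture.
-/

namespace Vale.Agent.P197.TS

open Equiv Finset
open scoped TensorProduct

noncomputable section

namespace Un

/-- `R⁺ C⁻` on a representation, as a linear map. -/
def rc {n : ℕ} {U : Type*} [AddCommMonoid U] [Module ℂ U]
    (σ : Representation ℂ (Perm (Fin n)) U) (rl cl : Fin n → ℕ) : U →ₗ[ℂ] U :=
  ∑ ρ ∈ stab rl, ∑ π ∈ stab cl, ((Perm.sign π : ℤ) : ℂ) • σ (ρ * π)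

theorem rc_apply {n : ℕ} {U : Type*} [AddCommMonoid U] [Module ℂ U]
    (σ : Representation ℂ (Perm (Fin n)) U) (rl cl : Fin n → ℕ) (u : U) :
    rc σ rl cl u = ∑ ρ ∈ stab rl, ∑ π ∈ stab cl, ((Perm.sign π : ℤ) : ℂ) • σ (ρ * π) u := by
  unfold rc
  simp only [LinearMap.sum_apply, LinearMap.smul_apply]

/-- A linear functional on the tensor product gives a bilinear form on words. -/
theorem exists_form {n : ℕ} (lam mu : YoungDiagram)
    (φ : spechtSub n lam ⊗[ℂ] spechtSub n mu →ₗ[ℂ] ℂ) :
    ∃ b : BF (Fin n), ∀ (v : spechtSub n lam) (w : spechtSub n mu),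
      b v.1 w.1 = φ (v ⊗ₜ[ℂ] w) := by
  obtain ⟨p, hp⟩ : ∃ p : WM (Fin n) →ₗ[ℂ] spechtSub n lam,
      p ∘ₗ (spechtSub n lam).subtype = LinearMap.id :=
    LinearMap.exists_leftInverse_of_injective _ (Submodule.ker_subtype _)
  obtain ⟨q, hq⟩ : ∃ q : WM (Fin n) →ₗ[ℂ] spechtSub n mu,
      q ∘ₗ (spechtSub n mu).subtype = LinearMap.id :=
    LinearMap.exists_leftInverse_of_injective _ (Submodule.ker_subtype _)
  refine ⟨(TensorProduct.curry φ).compl₁₂ p q, fun v w => ?_⟩
  have h1 : p v.1 = v := LinearMap.congr_fun hp v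
  have h2 : q w.1 = w := LinearMap.congr_fun hq w
  rw [LinearMap.compl₁₂_apply, h1, h2, TensorProduct.curry_apply]

theorem occ_eq {n : ℕ} (lam mu : YoungDiagram) (rl cl : Fin n → ℕ)
    (φ : spechtSub n lam ⊗[ℂ] spechtSub n mu →ₗ[ℂ] ℂ) (b : BF (Fin n))
    (hb : ∀ (v : spechtSub n lam) (w : spechtSub n mu), b v.1 w.1 = φ (v ⊗ₜ[ℂ] w))
    (v : spechtSub n lam) (w : spechtSub n mu) :
    occ rl cl (Fn b v.1 w.1) =
      φ (rc ((specht n lam).tprod (specht n mu)) rl cl (v ⊗ₜ[ℂ] w)) := by
  rw [rc_apply, map_sum]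
  unfold occ
  refine Finset.sum_congr rfl (fun ρ _ => ?_)
  rw [map_sum]
  refine Finset.sum_congr rfl (fun π _ => ?_)
  rw [map_smul, smul_eq_mul, Representation.tprod_apply, TensorProduct.map_tmul, ← hb]
  rfl

set_option maxSynthPendingDepth 3 in
theorem occ_of_ne {n : ℕ} (lam mu : YoungDiagram) (rl cl : Fin n → ℕ)
    (u : spechtSub n lam ⊗[ℂ] spechtSub n mu)
    (hu : rc ((specht n lam).tprod (specht n mu)) rl cl u ≠ 0) : Occ lam mu rl cl := by
  by_contra hcon
  apply hu
  have h0 : rc ((specht n lam).tprod (specht n mu)) rl cl = 0 := by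
    apply TensorProduct.ext'
    intro v w
    rw [LinearMap.zero_apply, ← Module.forall_dual_apply_eq_zero_iff ℂ]
    intro φ
    obtain ⟨b, hb⟩ := exists_form lam mu φ
    rw [← occ_eq lam mu rl cl φ b hb v w]
    by_contra hne
    exact hcon ⟨b, v.1, v.2, w.1, w.2, hne⟩
  rw [h0, LinearMap.zero_apply]

/-- An intertwining map commutes with `R⁺ C⁻`. -/
theorem rc_map {n : ℕ} {U V : Type*} [AddCommMonoid U] [Module ℂ U] [AddCommMonoid V] [Module ℂ V]
    (σ : Representation ℂ (Perm (Fin n)) U) (τ : Representation ℂ (Perm (Fin n)) V)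
    (f : U →ₗ[ℂ] V) (hf : ∀ g u, f (σ g u) = τ g (f u)) (rl cl : Fin n → ℕ) (u : U) :
    f (rc σ rl cl u) = rc τ rl cl (f u) := by
  rw [rc_apply, rc_apply, map_sum]
  refine Finset.sum_congr rfl (fun ρ _ => ?_)
  rw [map_sum]
  refine Finset.sum_congr rfl (fun π _ => ?_)
  rw [map_smul, hf]

set_option maxSynthPendingDepth 3 in
theorem univ_fin (hrk : PRank) (hirr : PIrr) (n k : ℕ) (hn : n = k * (k + 1) / 2)
    (rl cl : Fin n → ℕ) (hinj : ∀ x y, rl x = rl y → cl x = cl y → x = y) :
    Occ (staircase k) (staircase k) rl cl := by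
  obtain ⟨bet, hcard, v, hv, hne⟩ := hrk (Fin n) rl cl hinj
  rw [Fintype.card_fin] at hcard
  have hpos := saxl k bet (hcard.trans hn)
  rw [← hn] at hpos
  have hex : ∃ f : Representation.IntertwiningMap (specht n bet)
      ((specht n (staircase k)).tprod (specht n (staircase k))), f ≠ 0 := by
    by_contra hcon
    push Not at hcon
    have : Subsingleton (Representation.IntertwiningMap (specht n bet)
      ((specht n (staircase k)).tprod (specht n (staircase k)))) :=
      ⟨fun a b => by rw [hcon a, hcon b]⟩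
    unfold kron at hpos
    rw [Module.finrank_zero_of_subsingleton] at hpos
    exact lt_irrefl _ hpos
  obtain ⟨f, hf⟩ := hex
  have hfg : ∀ (g : Perm (Fin n)) (u : spechtSub n bet), f (specht n bet g u) =
      ((specht n (staircase k)).tprod (specht n (staircase k))) g (f u) := by
    intro g u
    exact LinearMap.congr_fun (f.isIntertwining' g) u
  let F : spechtSub n bet →ₗ[ℂ] (spechtSub n (staircase k) ⊗[ℂ] spechtSub n (staircase k)) :=
    f.toLinearMap
  have hFg : ∀ (g : Perm (Fin n)) (u : spechtSub n bet), F (specht n bet g u) =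
      ((specht n (staircase k)).tprod (specht n (staircase k))) g (F u) := hfg
  -- the kernel
  have hker : ∀ u : spechtSub n bet, F u = 0 → u = 0 := by
    by_contra hcon
    push Not at hcon
    obtain ⟨u0, hu0, hu0'⟩ := hcon
    let V : Submodule ℂ (WM (Fin n)) := (LinearMap.ker F).map (spechtSub n bet).subtype
    have hV : V = Sp (Fin n) bet := by
      apply hirr (Fin n) bet V
      · rintro _ ⟨u, -, rfl⟩
        exact u.2
      · rintro g _ ⟨u, hu, rfl⟩
        refine ⟨specht n bet g u, ?_, rfl⟩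
        have hu' : F u = 0 := hu
        change F (specht n bet g u) = 0
        rw [hFg, hu', map_zero]
      · intro hbot
        apply hu0'
        have : (u0 : WM (Fin n)) ∈ V := ⟨u0, hu0, rfl⟩
        rw [hbot, Submodule.mem_bot] at this
        exact Subtype.ext this
    apply hf
    have hall : ∀ u : spechtSub n bet, F u = 0 := by
      intro u
      have hu : (u : WM (Fin n)) ∈ V := by
        rw [hV]
        exact u.2
      obtain ⟨u', hu', heq⟩ := hu
      have : u' = u := Subtype.ext heq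
      rw [← this]
      exact hu'
    ext u
    exact hall u
  apply occ_of_ne (staircase k) (staircase k) rl cl (F ⟨v, hv⟩)
  rw [← rc_map _ _ F hFg]
  intro hz
  have h1 := hker _ hz
  apply hne
  have h2 : (spechtSub n bet).subtype (rc (specht n bet) rl cl ⟨v, hv⟩) = 0 := by
    rw [h1, map_zero]
  rw [rc_apply, map_sum] at h2
  rw [← h2]
  refine Finset.sum_congr rfl (fun ρ _ => ?_)
  rw [map_sum]
  refine Finset.sum_congr rfl (fun π _ => ?_)
  rw [map_smul]
  rfl

end Un

theorem pUniv_of (hrk : PRank) (hirr : PIrr) (htr : PTrans) : PUniv := by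
  intro k X _ _ hX rl cl hinj
  let e : Fin (k * (k + 1) / 2) ≃ X := (Fintype.equivFinOfCardEq hX).symm
  apply htr _ _ e
  apply Un.univ_fin hrk hirr _ k rfl
  intro x y h1 h2
  exact e.injective (hinj _ _ h1 h2)

end

end Vale.Agent.P197.TS
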