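import Vale.Agent.P197.TS.Asm
import Vale.Agent.P197.TS.Reg
import Vale.Agent.P197.TS.Geo
import Vale.Agent.P197.TS.Kron
import Vale.Agent.P197.TS.Gap
import Vale.Agent.P197.TS.Irr
import Vale.Agent.P197.TS.Rank
import Vale.Agent.P197.TS.Tw
import Vale.Agent.P197.TS.Univ
import Vale.Agent.P197.TS.Ari
import Vale.Agent.P197.TS.H95.Triv
import Vale.Agent.P197.TS.Cov
import Vale.Agent.P197.TS.Trans
import Vale.Agent.P197.TS.Block

namespace Vale.Agent.P197.TS

/-- **The tensor square conjecture for all `n ≥ 10^8`**: some Specht module of `S_n` has a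
universal tensor square. -/
theorem large :
    ∀ n : ℕ, 100000000 ≤ n → ∃ lam : YoungDiagram, lam.card = n ∧
      ∀ nu : YoungDiagram, nu.card = n → 0 < kron n lam lam nu := by
  have hTw : PTw := pTw_of pIrr
  exact large_of pkron (pkronT hTw) pGeo pCov pAri
    (pReg gap H95.pTriv pBlock (pOccT_of hTw) (pUniv_of pRank pIrr pTrans))

end Vale.Agent.P197.TS
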