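import Vale.Agent.P197.TS.Spec

/-!
# Tensor squares: `Occ` for the transposed diagram (P197, question Q2)
-/

namespace Vale.Agent.P197.TS

open Equiv Finset

noncomputable section

theorem sp_stable' {X : Type} [Fintype X] [DecidableEq X] (mu : YoungDiagram) (g : Perm X)
    {v : WM X} (hv : v ∈ Sp X mu) : wordRep X g v ∈ Sp X mu := by
  have h : Sp X mu ≤ (Sp X mu).comap (wordRep X g) := by
    unfold Sp
    rw [Submodule.span_le]
    rintro v ⟨t, rfl⟩
    refine Submodule.subset_span ⟨(g⁻¹ : Perm X).trans t, ?_⟩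
    rw [wordRep_polyt]
    rfl
  exact h hv

theorem left_inv {V W : Type} [AddCommGroup V] [Module ℂ V] [AddCommGroup W] [Module ℂ W]
    (f : V →ₗ[ℂ] W) (hf : LinearMap.ker f = ⊥) : ∃ g : W →ₗ[ℂ] V, ∀ x, g (f x) = x := by
  obtain ⟨g, hg⟩ := f.exists_leftInverse_of_injective hf
  exact ⟨g, fun x => LinearMap.congr_fun hg x⟩

theorem poccT (hTw : PTw) : POccT := by
  rintro X _ _ mu rl cl ⟨b, v, hv, w, hw, hne⟩
  obtain ⟨θ, hθ1, hθ2, hθ3⟩ := hTw X mu
  have hker : LinearMap.ker (θ.domRestrict (Sp X mu)) = ⊥ := by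
    rw [LinearMap.ker_eq_bot']
    intro x hx
    exact Subtype.ext (hθ3 x.1 x.2 hx)
  obtain ⟨L0, hL0⟩ := left_inv (V := ↥(Sp X mu)) (W := WM X) (θ.domRestrict (Sp X mu)) hker
  let L : WM X →ₗ[ℂ] WM X := (Sp X mu).subtype.comp L0
  have hL : ∀ x ∈ Sp X mu, L (θ x) = x := fun x hx => by
    exact congrArg Subtype.val (hL0 ⟨x, hx⟩)
  have hs : ∀ g : Perm X, ((Perm.sign g : ℤ) : ℂ) * ((Perm.sign g : ℤ) : ℂ) = 1 := fun g => by
    rcases Int.units_eq_one_or (Perm.sign g) with h | h <;> rw [h] <;> simp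
  have h1 : ∀ (g : Perm X) (x : WM X), x ∈ Sp X mu →
      L (wordRep X g (θ x)) = ((Perm.sign g : ℤ) : ℂ) • wordRep X g x := by
    intro g x hx
    have h2 : wordRep X g (θ x) = ((Perm.sign g : ℤ) : ℂ) • θ (wordRep X g x) := by
      rw [hθ1, smul_smul, hs, one_smul]
    rw [h2, map_smul, hL _ (sp_stable' mu g hx)]
  refine ⟨b.compl₁₂ L L, θ v, hθ2 v hv, θ w, hθ2 w hw, ?_⟩
  have e : Fn (b.compl₁₂ L L) (θ v) (θ w) = Fn b v w := by
    funext g
    unfold Fn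
    rw [LinearMap.compl₁₂_apply, h1 g v hv, h1 g w hw, map_smul, map_smul, LinearMap.smul_apply,
      smul_eq_mul, smul_eq_mul, ← mul_assoc, hs, one_mul]
  rw [e]
  exact hne

end

end Vale.Agent.P197.TS
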