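import Vale.Agent.P197.Bdl.B1

/-!
# Tensor squares of symmetric group representations: specification (P197, question Q2)
-/

namespace Vale.Agent.P197.TS

open Equiv Finset

noncomputable section

/-- Specht submodule on an arbitrary finite type (`Sp (Fin n) μ = spechtSub n μ`). -/
def Sp (X : Type) [Fintype X] [DecidableEq X] (μ : YoungDiagram) : Submodule ℂ (WM X) :=
  Submodule.span ℂ {v | ∃ t : X ≃ μ.cells,
    v = polyt (fun x => (t x).1.2) (fun x => (t x).1.1)}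

/-- `R⁺ C⁻` (row labels `rl`, column labels `cl`) does not vanish on `S^lam ⊗ S^mu`. -/
def Occ {X : Type} [Fintype X] [DecidableEq X] (lam mu : YoungDiagram) (rl cl : X → ℕ) : Prop :=
  ∃ b : BF X, ∃ v ∈ Sp X lam, ∃ w ∈ Sp X mu, occ rl cl (Fn b v w) ≠ 0

/-- the cells of the four rows `(4w+e, 4w, 4w, 4w)` -/
def topCell (w e a c : ℕ) : Prop := (a < 4 ∧ c < 4 * w) ∨ (a = 0 ∧ c < 4 * w + e)

/-- `(r, j)` identifies `Y` with the cells of the four rows `(4w+e, 4w, 4w, 4w)` -/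
structure IsTop {Y : Type} (w e : ℕ) (r j : Y → ℕ) : Prop where
  mem : ∀ y, topCell w e (r y) (j y)
  inj : ∀ y z, r y = r z → j y = j z → y = z
  surj : ∀ a c, topCell w e a c → ∃ y, r y = a ∧ j y = c

/-- data on the top part: two tableaux avoiding the box `[0,b)²` and a kernel on which
`R⁺ C⁻` does not vanish -/
def TD {Y : Type} [Fintype Y] [DecidableEq Y] (w e b : ℕ) (rl cl : Y → ℕ) : Prop :=
  ∃ r j r' i : Y → ℕ, IsTop w e r j ∧ IsTop w e r' i ∧ (∀ y, b ≤ j y ∨ b ≤ i y) ∧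
    ∃ y : (Y → ℕ) → (Y → ℕ) → ℂ,
      occ rl cl (Fn (kform y) (polyt j r) (polyt i r')) ≠ 0

/-- `lam` is `kap` with the four rows `(4w+e, 4w, 4w, 4w)` put on top -/
def IsStack (w e : ℕ) (kap lam : YoungDiagram) : Prop :=
  ∀ a c : ℕ, (a, c) ∈ lam ↔ (topCell w e a c ∨ (4 ≤ a ∧ (a - 4, c) ∈ kap))

/-- block number of a point -/
def blk {w e : ℕ} : (Fin w × Fin 4 × Fin 4) ⊕ Fin e → ℕ
  | Sum.inl p => p.1
  | Sum.inr s => w + s

/-- letter of a point -/
def ltr {w e : ℕ} : (Fin w × Fin 4 × Fin 4) ⊕ Fin e → ℕ × ℕ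
  | Sum.inl p => (p.2.1, p.2.2)
  | Sum.inr _ => (0, 0)

/-- (TR) transport -/
def PTrans : Prop := ∀ (X Y : Type) [Fintype X] [DecidableEq X] [Fintype Y] [DecidableEq Y]
  (e : X ≃ Y) (lam mu : YoungDiagram) (rl cl : Y → ℕ),
    Occ lam mu (rl ∘ e) (cl ∘ e) → Occ lam mu rl cl

/-- (KR) -/
def PKron : Prop := ∀ (n : ℕ) (lam mu nu : YoungDiagram) (t : Fin n ≃ nu.cells),
  Occ lam mu (fun x => (t x).1.1) (fun x => (t x).1.2) → 0 < kron n lam mu nu

/-- (KT) -/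
def PKronT : Prop := ∀ (n : ℕ) (lam nu : YoungDiagram), lam.transpose = lam →
  ∀ t : Fin n ≃ nu.cells, Occ lam lam (fun x => (t x).1.1) (fun x => (t x).1.2) →
    0 < kron n lam lam nu.transpose

/-- (IR) irreducibility of Specht modules -/
def PIrr : Prop := ∀ (X : Type) [Fintype X] [DecidableEq X] (mu : YoungDiagram)
  (V : Submodule ℂ (WM X)), V ≤ Sp X mu → (∀ g : Perm X, ∀ v ∈ V, wordRep X g v ∈ V) →
    V ≠ ⊥ → V = Sp X mu

/-- (TW) the sign twist -/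
def PTw : Prop := ∀ (X : Type) [Fintype X] [DecidableEq X] (mu : YoungDiagram),
  ∃ θ : WM X →ₗ[ℂ] WM X,
    (∀ (g : Perm X) (v : WM X),
      θ (wordRep X g v) = ((Perm.sign g : ℤ) : ℂ) • wordRep X g (θ v)) ∧
    (∀ v ∈ Sp X mu, θ v ∈ Sp X mu.transpose) ∧ ∀ v ∈ Sp X mu, θ v = 0 → v = 0

/-- (OT) -/
def POccT : Prop := ∀ (X : Type) [Fintype X] [DecidableEq X] (mu : YoungDiagram)
  (rl cl : X → ℕ), Occ mu mu rl cl → Occ mu.transpose mu.transpose rl cl

/-- (RK) for labels of an arbitrary diagram, `R⁺ C⁻` does not vanish on some Specht module -/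
def PRank : Prop := ∀ (X : Type) [Fintype X] [DecidableEq X] (rl cl : X → ℕ),
  (∀ x y, rl x = rl y → cl x = cl y → x = y) →
    ∃ bet : YoungDiagram, bet.card = Fintype.card X ∧ ∃ v ∈ Sp X bet,
      ∑ ρ ∈ stab rl, ∑ π ∈ stab cl,
        ((Perm.sign π : ℤ) : ℂ) • wordRep X (ρ * π) v ≠ 0

/-- (UN) universality of the staircase for labels of an arbitrary diagram -/
def PUniv : Prop := ∀ (k : ℕ) (X : Type) [Fintype X] [DecidableEq X],
  Fintype.card X = k * (k + 1) / 2 → ∀ rl cl : X → ℕ,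
    (∀ x y, rl x = rl y → cl x = cl y → x = y) → Occ (staircase k) (staircase k) rl cl

/-- (GAP) the gap lemma; `¬ Q` is the inner part (top four rows), `Q` the outer part -/
def PGap : Prop := ∀ (X : Type) [Fintype X] [DecidableEq X] (Q : X → Prop) [DecidablePred Q]
  (w e : ℕ) (kap lam : YoungDiagram), IsStack w e kap lam →
  ∀ (rl cl : X → ℕ) (bd : ℕ → ℕ), (∀ x, ¬ Q x ↔ rl x < bd (cl x)) →
    TD w e (kap.rowLen 0) (resW (fun x => ¬ Q x) rl) (resW (fun x => ¬ Q x) cl) →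
    Occ kap kap (resW Q rl) (resW Q cl) → Occ lam lam rl cl

/-- (TRIV) top data, trivial content -/
def PTriv : Prop := ∀ (Y : Type) [Fintype Y] [DecidableEq Y] (w e b : ℕ) (rl cl : Y → ℕ),
  Fintype.card Y = 16 * w + e → Function.Injective cl → 2 * b ≤ 4 * w → TD w e b rl cl

/-- (BLK) top data, rectangular content of height 16 -/
def PBlock : Prop := ∀ (Y : Type) [Fintype Y] [DecidableEq Y] (w e b : ℕ)
  (φ : Y ≃ (Fin w × Fin 4 × Fin 4) ⊕ Fin e) (rl cl : Y → ℕ), 2 * b + 3 ≤ 4 * w →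
    (∀ y z, cl y = cl z ↔ blk (φ y) = blk (φ z)) →
    (∀ y z, rl y = rl z → ltr (φ y) = ltr (φ z)) → TD w e b rl cl

end

end Vale.Agent.P197.TS
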