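import Vale.Agent.P197.TS.Spec

/-!
# (TRIV): top data with trivial content (P197, question Q2)
-/

namespace Vale.Agent.P197.TS

open Equiv Finset

noncomputable section

namespace Tv

/-- row of the `k`-th cell -/
def R (w k : ℕ) : ℕ := if k < 16 * w then k % 4 else 0

/-- column of the `k`-th cell -/
def C (w k : ℕ) : ℕ := if k < 16 * w then k / 4 else 4 * w + (k - 16 * w)

/-- reversal of the columns of the rectangle -/
def rev (w c : ℕ) : ℕ := if c < 4 * w then 4 * w - 1 - c else c

theorem top_mem {w e k : ℕ} (hk : k < 16 * w + e) : topCell w e (R w k) (C w k) := by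
  unfold topCell R C
  by_cases h : k < 16 * w
  · rw [if_pos h, if_pos h]
    left
    omega
  · rw [if_neg h, if_neg h]
    right
    omega

theorem top_inj {w k l : ℕ} (hR : R w k = R w l) (hC : C w k = C w l) : k = l := by
  unfold R at hR
  unfold C at hC
  split_ifs at hR hC <;> omega

theorem top_surj {w e a c : ℕ} (h : topCell w e a c) :
    ∃ k, k < 16 * w + e ∧ R w k = a ∧ C w k = c := by
  unfold topCell at h
  by_cases hc : c < 4 * w
  · have ha : a < 4 := by omega
    refine ⟨4 * c + a, by omega, ?_, ?_⟩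
    · unfold R
      rw [if_pos (by omega)]
      omega
    · unfold C
      rw [if_pos (by omega)]
      omega
  · refine ⟨16 * w + (c - 4 * w), by omega, ?_, ?_⟩
    · unfold R
      rw [if_neg (by omega)]
      omega
    · unfold C
      rw [if_neg (by omega)]
      omega

theorem rev_rev (w c : ℕ) : rev w (rev w c) = c := by
  unfold rev
  split_ifs <;> omega

theorem rev_inj {w c d : ℕ} (h : rev w c = rev w d) : c = d := by
  rw [← rev_rev w c, h, rev_rev]

theorem topCell_rev {w e a c : ℕ} (h : topCell w e a c) : topCell w e a (rev w c) := by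
  unfold topCell at h ⊢
  unfold rev
  split_ifs <;> omega

theorem isTop_rev {Y : Type} {w e : ℕ} {r j : Y → ℕ} (h : IsTop w e r j) :
    IsTop w e r (fun y => rev w (j y)) where
  mem y := topCell_rev (h.mem y)
  inj y z hr hj := h.inj y z hr (rev_inj hj)
  surj a c hac := by
    obtain ⟨y, hy, hy'⟩ := h.surj a (rev w c) (topCell_rev hac)
    refine ⟨y, hy, ?_⟩
    show rev w (j y) = c
    rw [hy', rev_rev]

theorem exists_isTop {Y : Type} [Fintype Y] {w e : ℕ} (h : Fintype.card Y = 16 * w + e) :
    ∃ r j : Y → ℕ, IsTop w e r j := by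
  let E : Y ≃ Fin (16 * w + e) := Fintype.equivFinOfCardEq h
  refine ⟨fun y => R w (E y), fun y => C w (E y), ?_, ?_, ?_⟩
  · intro y
    exact top_mem (E y).2
  · intro y z h1 h2
    exact E.injective (Fin.ext (top_inj h1 h2))
  · intro a c hac
    obtain ⟨k, hk, h1, h2⟩ := top_surj hac
    refine ⟨E.symm ⟨k, hk⟩, ?_, ?_⟩
    · show R w (E (E.symm ⟨k, hk⟩)) = a
      rw [Equiv.apply_symm_apply]
      exact h1
    · show C w (E (E.symm ⟨k, hk⟩)) = c
      rw [Equiv.apply_symm_apply]
      exact h2

/-- the diagonal kernel -/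
def ker {Y : Type} [Fintype Y] (u u' : Y → ℕ) : ℂ := if u = u' then 1 else 0

theorem stab_inv_apply {Y : Type} [Fintype Y] [DecidableEq Y] {j : Y → ℕ} {σ : Perm Y}
    (hσ : σ ∈ stab j) (x : Y) : j (σ⁻¹ x) = j x := by
  have h := mem_stab.1 hσ (σ⁻¹ x)
  rw [app_inv] at h
  exact h.symm

theorem Fn_ker {Y : Type} [Fintype Y] [DecidableEq Y] {r j i : Y → ℕ}
    (hinj : ∀ y z, r y = r z → j y = j z → y = z) (hst : stab i = stab j) (π : Perm Y) :
    Fn (kform ker) (polyt j r) (polyt i r) π = ((stab j).card : ℂ) := by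
  rw [Quat.Fn_kform, hst, Finset.card_eq_sum_ones, Nat.cast_sum]
  refine Finset.sum_congr rfl fun σ hσ => ?_
  rw [Finset.sum_eq_single σ]
  · unfold ker
    rw [if_pos rfl, Conj.sgn_sq, mul_one, Nat.cast_one]
  · intro τ hτ hne
    unfold ker
    rw [if_neg, mul_zero]
    intro h
    apply hne
    have h1 : ∀ x, τ⁻¹ x = σ⁻¹ x := by
      intro x
      apply hinj
      · have h2 := congrFun h (π x)
        simp only [Function.comp_apply] at h2
        rw [inv_app] at h2
        exact h2.symm
      · rw [stab_inv_apply hτ, stab_inv_apply hσ]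
    exact inv_injective (Equiv.ext h1)
  · intro h
    exact absurd hσ h

theorem stab_rev {Y : Type} [Fintype Y] [DecidableEq Y] (w : ℕ) (j : Y → ℕ) :
    stab (fun y => rev w (j y)) = stab j := by
  ext σ
  rw [mem_stab, mem_stab]
  constructor
  · intro h x
    exact rev_inj (h x)
  · intro h x
    show rev w (j (σ x)) = rev w (j x)
    rw [h x]

theorem stab_inj {Y : Type} [Fintype Y] [DecidableEq Y] {c : Y → ℕ}
    (hc : Function.Injective c) : stab c = {1} := by
  ext σ
  rw [mem_stab, Finset.mem_singleton]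
  constructor
  · intro h
    exact Equiv.ext fun x => hc (h x)
  · rintro rfl x
    rfl

end Tv

open Tv in
/-- (TRIV) -/
theorem pTriv : PTriv := by
  intro Y _ _ w e b rl cl hcard hcl hb
  obtain ⟨r, j, hj⟩ := exists_isTop (w := w) (e := e) hcard
  refine ⟨r, j, r, fun y => rev w (j y), hj, isTop_rev hj, ?_, ker, ?_⟩
  · intro y
    show b ≤ j y ∨ b ≤ rev w (j y)
    unfold rev
    split_ifs <;> omega
  · have hF : Fn (kform ker) (polyt j r) (polyt (fun y => rev w (j y)) r) =
        fun _ => ((stab j).card : ℂ) := by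
      funext π
      exact Fn_ker hj.inj (stab_rev w j) π
    have hj0 : (stab j).card ≠ 0 := Finset.card_ne_zero_of_mem (Conj.one_mem_stab j)
    have hr0 : (stab rl).card ≠ 0 := Finset.card_ne_zero_of_mem (Conj.one_mem_stab rl)
    rw [hF]
    unfold occ
    rw [stab_inj hcl]
    simp only [Finset.sum_singleton, Perm.sign_one, Units.val_one, Int.cast_one, one_mul,
      Finset.sum_const, nsmul_eq_mul]
    exact mul_ne_zero (Nat.cast_ne_zero.2 hr0) (Nat.cast_ne_zero.2 hj0)

end

end Vale.Agent.P197.TS
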